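import Vale.Agent.P181.ST.H662.Tri

set_option autoImplicit false

/-!
# P181, ST (T2): the seed of one triple
-/

open MvPolynomial

namespace Vale.Agent.P181.ST.H662

open Vale.Agent.P181.DH.H674 (col)

variable {m : ℕ}

/-- A linear form in the columns. -/
noncomputable def AL (m : ℕ) {σ : Type} [Fintype σ] (a : σ → ℂ) (k : Fin (m + 1)) :
    MvPolynomial (Fin (m + 1) × σ) ℂ := ∑ r, C (a r) * X (k, r)

/-- `y - y'`. -/
def aA : Fin 3 → ℂ := ![1, -1, 0]

/-- `y + y' - 2 y''`. -/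
def aC : Fin 3 → ℂ := ![1, 1, -2]

/-- The rows below the first one. -/
noncomputable def RR (m : ℕ) (u : Fin m → ℕ) : MvPolynomial (Fin (m + 1) × Fin 3) ℂ :=
  ∏ k, AL m aC (Fin.succ k) ^ u k

/-- The seed of a triple. -/
noncomputable def T3 (m i : ℕ) (u : Fin m → ℕ) : MvPolynomial (Fin (m + 1) × Fin 3) ℂ :=
  AL m aA 0 ^ 2 * AL m aC 0 ^ i * RR m u

lemma pd_AL {σ : Type} [Fintype σ] (a : σ → ℂ) (k : Fin (m + 1)) (s : σ) :
    pderiv (0, s) (AL m a k) = if k = 0 then C (a s) else 0 := by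
  classical
  rw [AL, map_sum]
  have h : ∀ r : σ, pderiv ((0, s) : Fin (m + 1) × σ) (C (a r) * X (k, r)) =
      if (k = 0 ∧ r = s) then C (a r) else 0 := by
    intro r
    rw [pderiv_C_mul, pderiv_X]
    by_cases hk : k = 0 ∧ r = s
    · obtain ⟨rfl, rfl⟩ := hk
      simp
    · rw [if_neg hk, Pi.single_eq_of_ne, mul_zero]
      intro h'
      exact hk ⟨(congrArg Prod.fst h'), (congrArg Prod.snd h')⟩
  rw [Finset.sum_congr rfl fun r _ => h r]
  by_cases hk : k = 0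
  · simp [hk]
  · simp [hk]

lemma pd_RR (u : Fin m → ℕ) (s : Fin 3) : pderiv (0, s) (RR m u) = 0 := by
  unfold RR
  refine Finset.prod_induction _ (fun f => pderiv ((0, s) : Fin (m + 1) × Fin 3) f = 0) ?_ ?_ ?_
  · intro a b ha hb
    rw [Derivation.leibniz, ha, hb, smul_zero, smul_zero, add_zero]
  · exact pderiv_one
  · intro k _
    rw [Derivation.leibniz_pow, pd_AL, if_neg (Fin.succ_ne_zero k), smul_zero, smul_zero]

lemma SS_AL (a : Fin 3 → ℂ) (k : Fin (m + 1)) (r : Fin 3) : SS m r (AL m a k) = C (a r) * X k := by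
  rw [AL, map_sum, Finset.sum_eq_single r]
  · rw [map_mul, SS, aeval_X, if_pos rfl]
    congr 1
    exact (aeval _).commutes _
  · intro r' _ hr'
    rw [map_mul, SS, aeval_X, if_neg hr', mul_zero]
  · intro h
    exact absurd (Finset.mem_univ _) h

lemma SS_RR (u : Fin m → ℕ) (r : Fin 3) :
    SS m r (RR m u) = C (aC r ^ ∑ k, u k) * ∏ k : Fin m, X k.succ ^ u k := by
  rw [RR, map_prod, map_pow, ← Finset.prod_pow_eq_pow_sum, ← Finset.prod_mul_distrib]
  refine Finset.prod_congr rfl fun k _ => ?_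
  rw [map_pow, SS_AL, mul_pow]

lemma mono_cons (i : ℕ) (u : Fin m → ℕ) (r : ℂ) :
    (monomial (fs (Fin.cons i u : Fin (m + 1) → ℕ)) r : MvPolynomial (Fin (m + 1)) ℂ) =
      C r * (X 0 ^ i * ∏ k : Fin m, X k.succ ^ u k) := by
  rw [monomial_eq, Finsupp.prod_fintype _ _ (fun i => pow_zero _), Fin.prod_univ_succ]
  rfl

/-- The coefficient. -/
noncomputable def kf (i U : ℕ) (r r1 r2 : Fin 3) : ℂ :=
  aC r ^ U * (2 * aA r1 * aA r2 * aC r ^ i + 2 * aA r * aA r2 * i * aC r ^ (i - 1) * aC r1 +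
    2 * aA r * aA r1 * i * aC r ^ (i - 1) * aC r2 +
    aA r ^ 2 * i * (i - 1) * aC r ^ (i - 2) * aC r1 * aC r2)

lemma EE_T3 (i : ℕ) (u : Fin m → ℕ) (r r1 r2 : Fin 3) :
    EE m r r1 r2 (T3 m i u) = monomial (fs (Fin.cons i u : Fin (m + 1) → ℕ))
      (kf i (∑ k, u k) r r1 r2) := by
  have hA : ∀ s, pderiv (0, s) (AL m aA 0) = C (aA s) := fun s => by rw [pd_AL, if_pos rfl]
  have hC : ∀ s, pderiv (0, s) (AL m aC 0) = C (aC s) := fun s => by rw [pd_AL, if_pos rfl]
  have hR : ∀ s, pderiv (0, s) (RR m u) = 0 := fun s => pd_RR u s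
  have hCC : ∀ (s : Fin 3) (z : ℂ), pderiv ((0, s) : Fin (m + 1) × Fin 3) (C z) = 0 :=
    fun s z => pderiv_C
  have h2 : ∀ s : Fin 3, pderiv ((0, s) : Fin (m + 1) × Fin 3)
      (2 : MvPolynomial (Fin (m + 1) × Fin 3) ℂ) = 0 := fun s => hCC s 2
  have hS : ∀ (s : Fin 3) (z : ℂ), SS m s (C z) = C z := fun s z => (SS m s).commutes z
  rw [EE_apply, T3, mono_cons]
  rcases i with _ | _ | n
  · simp only [Derivation.leibniz, Derivation.leibniz_pow, hA, hC, hR, hCC, h2, smul_eq_mul,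
      nsmul_eq_mul, map_add, map_mul, map_pow, SS_AL, SS_RR, kf, map_zero, mul_zero, add_zero,
      zero_add, pow_zero, Nat.cast_zero, zero_mul, map_natCast, map_ofNat, map_sub, map_one,
      Nat.cast_ofNat, pow_one, mul_one, one_mul, hS]
    ring
  · simp only [Derivation.leibniz, Derivation.leibniz_pow, hA, hC, hR, hCC, h2, smul_eq_mul,
      nsmul_eq_mul, map_add, map_mul, map_pow, SS_AL, SS_RR, kf, map_zero, mul_zero, add_zero,
      zero_add, pow_zero, Nat.cast_zero, zero_mul, map_natCast, map_ofNat, map_sub, map_one,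
      Nat.cast_ofNat, pow_one, mul_one, one_mul, hS]
    norm_num
    ring
  · have h3 : n + 1 + 1 - 2 = n := rfl
    have h4 : n + 1 + 1 - 1 = n + 1 := rfl
    have h5 : n + 1 - 1 = n := rfl
    have h6 : ∀ s : Fin 3, pderiv ((0, s) : Fin (m + 1) × Fin 3)
      (((n + 1 + 1 : ℕ) : MvPolynomial (Fin (m + 1) × Fin 3) ℂ)) = 0 :=
        fun s => Derivation.map_natCast _ _
    simp only [Derivation.leibniz, Derivation.leibniz_pow, hA, hC, hR, hCC, h2, smul_eq_mul,
      nsmul_eq_mul, map_add, map_mul, map_pow, SS_AL, SS_RR, kf, map_zero, mul_zero, add_zero,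
      zero_add, map_natCast, map_ofNat, map_sub, map_one, Nat.cast_ofNat, h3, h4, h5, h6, hS]
    push_cast
    ring

/-- `κ(i, j)`. -/
noncomputable def kap (i j : ℕ) : ℂ := (-2) ^ (i + j + 1) + 4 * i * (3 - i)

lemma E3_T3 (i : ℕ) (u : Fin m → ℕ) :
    E3 m (T3 m i u) = C (kap i (∑ k, u k)) * X (Fin.cons i u : Fin (m + 1) → ℕ) := by
  have h : kf i (∑ k, u k) 0 1 2 + kf i (∑ k, u k) 1 0 2 + kf i (∑ k, u k) 2 0 1 =
      kap i (∑ k, u k) := by
    generalize (∑ k, u k) = U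
    unfold kf kap aA aC
    simp only [Matrix.cons_val_zero, Matrix.cons_val_one, Matrix.cons_val_two, Matrix.head_cons,
      Matrix.tail_cons, Matrix.cons_val]
    simp only [one_pow]
    ring
  rw [E3, LinearMap.comp_apply, LinearMap.add_apply, LinearMap.add_apply, EE_T3, EE_T3, EE_T3,
    ← map_add (monomial _), ← map_add (monomial _), h, tle_monomial]

lemma two_lt {i : ℕ} (h : 4 ≤ i) : 2 * (i * (i - 3)) < 2 ^ i := by
  obtain ⟨n, rfl⟩ := Nat.exists_eq_add_of_le h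
  have h1 : 4 + n - 3 = n + 1 := by omega
  rw [h1]
  induction n with
  | zero => norm_num
  | succ n ih =>
    have h2 := ih (by omega) (by omega)
    rw [show 4 + (n + 1) = 4 + n + 1 by ring, pow_succ]
    rcases n with _ | n
    · norm_num
    · nlinarith

lemma kap_ne (i j : ℕ) (h : (1 ≤ i ∧ 3 ≤ i + j) ∨ (i = 0 ∧ 2 ≤ j)) : kap i j ≠ 0 := by
  intro h0
  have h1 : ((-2 : ℤ) ^ (i + j + 1) + 4 * i * (3 - i) : ℤ) = 0 := by
    have : (((-2 : ℤ) ^ (i + j + 1) + 4 * i * (3 - i) : ℤ) : ℂ) = 0 := by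
      push_cast
      exact h0
    exact_mod_cast this
  have h2 : (2 : ℤ) ^ (i + j + 1) = |4 * (i : ℤ) * (3 - i)| := by
    have h3 : (-2 : ℤ) ^ (i + j + 1) = -(4 * i * (3 - i)) := by linarith
    have h4 := congrArg abs h3
    rwa [abs_pow, abs_neg, abs_neg, show |(2 : ℤ)| = 2 from rfl] at h4
  rcases Nat.lt_or_ge i 4 with hi | hi
  · have h5 : (2 : ℤ) ^ (i + j + 1) ≥ 16 ∨ i = 0 := by
      by_cases h6 : i = 0
      · exact Or.inr h6
      · left
        calc (2 : ℤ) ^ (i + j + 1) ≥ 2 ^ 4 := pow_le_pow_right₀ (by norm_num) (by omega)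
          _ = 16 := by norm_num
    have h7 : (0 : ℤ) < 2 ^ (i + j + 1) := by positivity
    interval_cases i
    · simp at h2
    · norm_num at h2 h5
      rw [h2] at h5
      norm_num at h5
    · norm_num at h2 h5
      rw [h2] at h5
      norm_num at h5
    · norm_num at h2
  · have h5 := two_lt hi
    have h6 : |4 * (i : ℤ) * (3 - i)| = 2 * ((2 * (i * (i - 3)) : ℕ) : ℤ) := by
      rw [abs_of_nonpos (by nlinarith)]
      push_cast [Nat.cast_sub (show 3 ≤ i by omega)]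
      ring
    have h7 : (2 : ℤ) ^ (i + j + 1) ≥ 2 ^ (i + 1) := pow_le_pow_right₀ (by norm_num) (by omega)
    rw [h2, h6, pow_succ] at h7
    have h8 : ((2 * (i * (i - 3)) : ℕ) : ℤ) < (2 : ℤ) ^ i := by exact_mod_cast h5
    linarith

end Vale.Agent.P181.ST.H662
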