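import Vale.Agent.P181.ST.H662.Seed

set_option autoImplicit false

/-!
# P181, ST (T2): the leading letters of the seed polynomial
-/

open MvPolynomial

namespace Vale.Agent.P181.ST.H662

open Vale.Agent.P181.DH.H674 (col)
open Vale.Agent.P181.SZR5 (ren ren_X)
open Vale.Agent.P181.T4 (HW)
open Vale.Agent.P181.TL (KK)
open Vale.Agent.P181.TL.H248 (HH HH_apply mo hd yy)
open Vale.Agent.P181.DG6.H887 (lsub lsub_X)

variable {m c g1 g2 : ℕ}

/-- The variables of the first group below row zero. -/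
def bad (p : Fin (m + 1) × Pt c g1 g2) : Prop := kP p.2 = Sum.inr false ∧ p.1 ≠ 0

instance (p : Fin (m + 1) × Pt c g1 g2) : Decidable (bad p) := by unfold bad; infer_instance

/-- The projection. -/
noncomputable def psi (m c g1 g2 : ℕ) :
    MvPolynomial (Fin (m + 1) × Pt c g1 g2) ℂ →ₐ[ℂ] MvPolynomial (Fin (m + 1) × Pt c g1 g2) ℂ :=
  aeval fun p => if bad p then 0 else X p

open scoped Classical in
lemma psi_monomial (w : Fin (m + 1) × Pt c g1 g2 →₀ ℕ) :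
    psi m c g1 g2 (monomial w 1) = if ∃ p, bad p ∧ w p ≠ 0 then 0 else monomial w 1 := by
  rw [psi, aeval_monomial, map_one, one_mul]
  split_ifs with h
  · obtain ⟨p, hp, hw⟩ := h
    refine Finset.prod_eq_zero (Finsupp.mem_support_iff.2 hw) ?_
    simp only [if_pos hp]
    exact zero_pow hw
  · push Not at h
    rw [monomial_eq, C_1, one_mul]
    refine Finset.prod_congr rfl fun p hp => ?_
    simp only
    rw [if_neg]
    intro h'
    exact (Finsupp.mem_support_iff.1 hp) (h p h')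

/-- One factor `t` for every triple. -/
lemma dvd_triples (w : Fin (m + 1) × Pt c g1 g2 →₀ ℕ)
    (hw : ∀ q, 4 ≤ ∑ r, ∑ i, w (i, Sum.inl (q, r))) :
    (Polynomial.X : Polynomial (LR m)) ^ c ∣ ∏ x : Fin c × Fin 3, lw m (col w (Sum.inl x)) := by
  rw [Fintype.prod_prod_type]
  have h1 : (Polynomial.X : Polynomial (LR m)) ^ c = ∏ _q : Fin c, Polynomial.X := by
    rw [Finset.prod_const, Finset.card_univ, Fintype.card_fin]
  rw [h1]
  refine Finset.prod_dvd_prod_of_dvd _ _ fun q _ => ?_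
  have h2 : ∃ r, col w (Sum.inl (q, r)) ≠ e0 m := by
    by_contra h
    push Not at h
    have h3 : ∀ r, ∑ i, w (i, Sum.inl (q, r)) = 1 := by
      intro r
      have : ∑ i, w (i, Sum.inl (q, r)) = ∑ i, e0 m i :=
        Finset.sum_congr rfl fun i _ => congrFun (h r) i
      rw [this, e0, Finset.sum_pi_single']
      simp
    have h4 := hw q
    rw [Finset.sum_congr rfl fun r _ => h3 r] at h4
    simp at h4
  obtain ⟨r, hr⟩ := h2
  exact (X_dvd_lw hr).trans (Finset.dvd_prod_of_mem _ (Finset.mem_univ r))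

lemma dvd_all (w : Fin (m + 1) × Pt c g1 g2 →₀ ℕ)
    (hw : ∀ q, 4 ≤ ∑ r, ∑ i, w (i, Sum.inl (q, r))) :
    (Polynomial.X : Polynomial (LR m)) ^ c ∣ ∏ y, lw m (col w y) := by
  rw [Fintype.prod_sum_type]
  exact Dvd.dvd.mul_right (dvd_triples w hw) _

lemma dvd_bad (w : Fin (m + 1) × Pt c g1 g2 →₀ ℕ)
    (hw : ∀ q, 4 ≤ ∑ r, ∑ i, w (i, Sum.inl (q, r))) (hb : ∃ p, bad p ∧ w p ≠ 0) :
    (Polynomial.X : Polynomial (LR m)) ^ (c + 1) ∣ ∏ y, lw m (col w y) := by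
  obtain ⟨⟨k, y⟩, ⟨hb1, hb2⟩, hb3⟩ := hb
  rw [Fintype.prod_sum_type, Fintype.prod_sum_type, pow_succ]
  refine mul_dvd_mul (dvd_triples w hw) (Dvd.dvd.mul_right ?_ _)
  rcases y with z | p | p
  · simp [kP] at hb1
  · refine (X_dvd_lw ?_).trans (Finset.dvd_prod_of_mem _ (Finset.mem_univ p))
    intro h
    have h1 := congrFun h k
    rw [e0, Pi.single_eq_of_ne hb2] at h1
    exact hb3 h1
  · simp [kP] at hb1

lemma ph_sub_psi {F : MvPolynomial (Fin (m + 1) × Pt c g1 g2) ℂ}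
    (hF : ∀ w, coeff w F ≠ 0 → ∀ q, 4 ≤ ∑ r, ∑ i, w (i, Sum.inl (q, r))) :
    (Polynomial.X : Polynomial (LR m)) ^ (c + 1) ∣ ph m _ F - ph m _ (psi m c g1 g2 F) := by
  classical
  have h0 : ph m _ F - ph m _ (psi m c g1 g2 F) = ∑ w ∈ F.support,
      coeff w F • (ph m _ (monomial w 1) - ph m _ (psi m c g1 g2 (monomial w 1))) := by
    conv_lhs => rw [← support_sum_monomial_coeff F]
    rw [map_sum, map_sum, map_sum, ← Finset.sum_sub_distrib]
    refine Finset.sum_congr rfl fun w _ => ?_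
    have h : monomial w (coeff w F) = coeff w F • monomial w (1 : ℂ) := by
      rw [smul_monomial, smul_eq_mul, mul_one]
    rw [h, map_smul, map_smul, map_smul, smul_sub]
  rw [h0]
  refine Finset.dvd_sum fun w hw => ?_
  rw [Algebra.smul_def]
  refine Dvd.dvd.mul_left ?_ _
  rw [psi_monomial]
  split_ifs with h
  · rw [map_zero, sub_zero, ph_monomial, one_smul]
    exact dvd_bad w (hF w (mem_support_iff.1 hw)) h
  · rw [sub_self]
    exact dvd_zero _

/-! ### The projection of the seed -/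

/-- The block embeddings. -/
noncomputable def rq (m : ℕ) {c g1 g2 : ℕ} (q : Fin c) :
    MvPolynomial (Fin (m + 1) × Fin 3) ℂ →ₐ[ℂ] MvPolynomial (Fin (m + 1) × Pt c g1 g2) ℂ :=
  (ren (m + 1) Sum.inl).comp (ren (m + 1) fun r => (q, r))

noncomputable def r1 (m c g1 g2 : ℕ) :
    MvPolynomial (Fin (m + 1) × Fin g1) ℂ →ₐ[ℂ] MvPolynomial (Fin (m + 1) × Pt c g1 g2) ℂ :=
  (ren (m + 1) Sum.inr).comp (ren (m + 1) Sum.inl)

noncomputable def r2 (m c g1 g2 : ℕ) :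
    MvPolynomial (Fin (m + 1) × Fin g2) ℂ →ₐ[ℂ] MvPolynomial (Fin (m + 1) × Pt c g1 g2) ℂ :=
  (ren (m + 1) Sum.inr).comp (ren (m + 1) Sum.inr)

lemma rq_X (q : Fin c) (k : Fin (m + 1)) (r : Fin 3) :
    rq m (g1 := g1) (g2 := g2) q (X (k, r)) = X (k, Sum.inl (q, r)) := by
  rw [rq, AlgHom.comp_apply, ren_X, ren_X]

lemma r1_X (k : Fin (m + 1)) (p : Fin g1) : r1 m c g1 g2 (X (k, p)) = X (k, Sum.inr (Sum.inl p)) := by
  rw [r1, AlgHom.comp_apply, ren_X, ren_X]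

lemma r2_X (k : Fin (m + 1)) (p : Fin g2) : r2 m c g1 g2 (X (k, p)) = X (k, Sum.inr (Sum.inr p)) := by
  rw [r2, AlgHom.comp_apply, ren_X, ren_X]

lemma aeval_C' {I J : Type} (φ : MvPolynomial I ℂ →ₐ[ℂ] MvPolynomial J ℂ) (z : ℂ) :
    φ (C z) = C z := φ.commutes z

lemma psi_X (k : Fin (m + 1)) (y : Pt c g1 g2) :
    psi m c g1 g2 (X (k, y)) = if bad (k, y) then 0 else X (k, y) := aeval_X _ _

variable (γ1 : Fin g1 → ℂ) (γ2 : Fin g2 → ℂ)

lemma sub_C (q : Fin c) (k : Fin (m + 1)) :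
    psi m c g1 g2 (lsub (m + 1) (MA γ1 γ2) (X (k, Sum.inl q))) = rq m q (AL m aC k) := by
  rw [lsub_X, Fintype.sum_sum_type, Fintype.sum_sum_type, Fintype.sum_prod_type,
    Finset.sum_eq_single q]
  · simp only [MA, if_true, C_0, zero_mul, Finset.sum_const_zero, add_zero, map_sum, map_mul,
      aeval_C', psi_X, AL, rq_X]
    refine Finset.sum_congr rfl fun r _ => ?_
    rw [if_neg]
    rintro ⟨h, -⟩
    simp [kP] at h
  · intro q' _ hq'
    simp [MA, hq']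
  · intro h
    exact absurd (Finset.mem_univ _) h

lemma sub_A (q : Fin c) (k : Fin (m + 1)) :
    psi m c g1 g2 (lsub (m + 1) (MA γ1 γ2) (X (k, Sum.inr (Sum.inl q)))) = rq m q (AL m aA k) := by
  rw [lsub_X, Fintype.sum_sum_type, Fintype.sum_sum_type, Fintype.sum_prod_type,
    Finset.sum_eq_single q]
  · simp only [MA, if_true, C_0, zero_mul, Finset.sum_const_zero, add_zero, map_sum, map_mul,
      aeval_C', psi_X, AL, rq_X]
    refine Finset.sum_congr rfl fun r _ => ?_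
    rw [if_neg]
    rintro ⟨h, -⟩
    simp [kP] at h
  · intro q' _ hq'
    simp [MA, hq']
  · intro h
    exact absurd (Finset.mem_univ _) h

lemma sub_Z0 : psi m c g1 g2 (lsub (m + 1) (MA γ1 γ2) (X (0, Sum.inr (Sum.inr false)))) =
    r1 m c g1 g2 (AL m γ1 0) := by
  rw [lsub_X, Fintype.sum_sum_type, Fintype.sum_sum_type]
  simp only [MA, C_0, zero_mul, Finset.sum_const_zero, add_zero, zero_add, map_sum, map_mul,
    aeval_C', psi_X, AL, r1_X]
  refine Finset.sum_congr rfl fun r _ => ?_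
  rw [if_neg]
  rintro ⟨-, h⟩
  exact h rfl

lemma sub_Zk (k : Fin m) :
    psi m c g1 g2 (lsub (m + 1) (MA γ1 γ2) (X (k.succ, Sum.inr (Sum.inr false)))) = 0 := by
  rw [lsub_X, Fintype.sum_sum_type, Fintype.sum_sum_type]
  simp only [MA, C_0, zero_mul, Finset.sum_const_zero, add_zero, zero_add, map_sum, map_mul,
    aeval_C', psi_X]
  refine Finset.sum_eq_zero fun r _ => ?_
  rw [if_pos, mul_zero]
  exact ⟨rfl, Fin.succ_ne_zero k⟩

lemma sub_W0 : psi m c g1 g2 (lsub (m + 1) (MA γ1 γ2) (X (0, Sum.inr (Sum.inr true)))) =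
    r2 m c g1 g2 (AL m γ2 0) := by
  rw [lsub_X, Fintype.sum_sum_type, Fintype.sum_sum_type]
  simp only [MA, C_0, zero_mul, Finset.sum_const_zero, add_zero, zero_add, map_sum, map_mul,
    aeval_C', psi_X, AL, r2_X]
  refine Finset.sum_congr rfl fun r _ => ?_
  rw [if_neg]
  rintro ⟨-, h⟩
  exact h rfl

/-- The composition. -/
noncomputable def ps (m : ℕ) {c g1 g2 : ℕ} (γ1 : Fin g1 → ℂ) (γ2 : Fin g2 → ℂ) :
    MvPolynomial (Fin (m + 1) × Src c) ℂ →ₐ[ℂ] MvPolynomial (Fin (m + 1) × Pt c g1 g2) ℂ :=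
  (psi m c g1 g2).comp (lsub (m + 1) (MA γ1 γ2))

lemma ps_yy (v : MvPolynomial (Fin m × Fin c) ℂ) :
    ps m γ1 γ2 (aeval (yy (k := m) (fun _ : Fin c => (Sum.inr false : Fin c ⊕ Bool))) v) =
      aeval (fun x : Fin m × Fin c => r1 m c g1 g2 (AL m γ1 0) *
        rq m x.2 (AL m aC x.1.succ)) v := by
  have h : (ps m γ1 γ2).comp (aeval (yy (k := m) (fun _ : Fin c => (Sum.inr false : Fin c ⊕ Bool)))) =
      aeval (fun x : Fin m × Fin c => r1 m c g1 g2 (AL m γ1 0) *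
        rq m x.2 (AL m aC x.1.succ)) := by
    apply MvPolynomial.algHom_ext
    rintro ⟨k, q⟩
    rw [AlgHom.comp_apply, aeval_X, aeval_X, yy, map_sub, map_mul, map_mul]
    simp only [ps, AlgHom.comp_apply]
    rw [sub_Z0, sub_Zk, sub_C, zero_mul, sub_zero]
  exact DFunLike.congr_fun h v

lemma ps_mo (lab : Fin c → ℕ × ℕ) :
    ps m γ1 γ2 (mo m (sS lab) (pS g1 g2) (fun _ => (Sum.inr false : Fin c ⊕ Bool))
      (fun q => (lab q).2)) = (∏ q, rq m q (AL m aC 0) ^ (lab q).1) *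
        ((∏ q, rq m q (AL m aA 0) ^ 2) * (r2 m c g1 g2 (AL m γ2 0) ^ g2 *
          r1 m c g1 g2 (AL m γ1 0) ^ (g1 - ∑ q, (lab q).2))) := by
  rw [mo, map_prod, Fintype.prod_sum_type, Fintype.prod_sum_type, Fintype.prod_bool]
  simp only [Sum.elim_inl, Sum.elim_inr, map_pow, ps, AlgHom.comp_apply, sub_C, sub_A, sub_Z0,
    sub_W0, hd_eq, pS, sS, if_true, Nat.add_sub_cancel]
  simp

/-- The monomials. -/
lemma ps_monomial (lab : Fin c → ℕ × ℕ) (hD : ∑ q, (lab q).2 ≤ g1) (u : Fin m × Fin c →₀ ℕ)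
    (hu : ∀ q, ∑ k, u (k, q) = (lab q).2) :
    ps m γ1 γ2 (mo m (sS lab) (pS g1 g2) (fun _ => (Sum.inr false : Fin c ⊕ Bool))
      (fun q => (lab q).2)) * aeval (fun x : Fin m × Fin c => r1 m c g1 g2 (AL m γ1 0) *
        rq m x.2 (AL m aC x.1.succ)) (monomial u (1 : ℂ)) =
      ren (m + 1) Sum.inl (∏ q, ren (m + 1) (fun r => (q, r)) (T3 m (lab q).1 fun k => u (k, q))) *
      ren (m + 1) Sum.inr (ren (m + 1) Sum.inl (AL m γ1 0 ^ g1) *
        ren (m + 1) Sum.inr (AL m γ2 0 ^ g2)) := by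
  have h1 : aeval (fun x : Fin m × Fin c => r1 m c g1 g2 (AL m γ1 0) *
        rq m x.2 (AL m aC x.1.succ)) (monomial u (1 : ℂ)) =
      r1 m c g1 g2 (AL m γ1 0) ^ (∑ q, (lab q).2) *
        ∏ q, ∏ k : Fin m, rq m q (AL m aC k.succ) ^ u (k, q) := by
    rw [aeval_monomial, map_one, one_mul, Finsupp.prod_fintype _ _ (fun i => pow_zero _),
      Fintype.prod_prod_type_right]
    simp only [mul_pow]
    rw [Finset.prod_congr rfl fun q _ => Finset.prod_mul_distrib, Finset.prod_mul_distrib]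
    congr 1
    rw [← Finset.prod_pow_eq_pow_sum]
    refine Finset.prod_congr rfl fun q _ => ?_
    rw [Finset.prod_pow_eq_pow_sum, hu]
  have h2 : ren (m + 1) (Sum.inl : Fin c × Fin 3 → Pt c g1 g2)
      (∏ q, ren (m + 1) (fun r => (q, r)) (T3 m (lab q).1 fun k => u (k, q))) =
      (∏ q, rq m q (AL m aA 0) ^ 2) * (∏ q, rq m q (AL m aC 0) ^ (lab q).1) *
        ∏ q, ∏ k : Fin m, rq m q (AL m aC k.succ) ^ u (k, q) := by
    rw [map_prod, ← Finset.prod_mul_distrib, ← Finset.prod_mul_distrib]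
    refine Finset.prod_congr rfl fun q _ => ?_
    change rq m q (T3 m (lab q).1 fun k => u (k, q)) = _
    rw [T3, RR, map_mul, map_mul, map_pow, map_pow, map_prod]
    congr 1
    exact Finset.prod_congr rfl fun k _ => map_pow _ _ _
  have h3 : ren (m + 1) (Sum.inr : Fin g1 ⊕ Fin g2 → Pt c g1 g2) (ren (m + 1) Sum.inl (AL m γ1 0 ^ g1) *
        ren (m + 1) Sum.inr (AL m γ2 0 ^ g2)) = r1 m c g1 g2 (AL m γ1 0) ^ g1 *
        r2 m c g1 g2 (AL m γ2 0) ^ g2 := by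
    rw [map_mul, map_pow, map_pow, map_pow, map_pow]
    rfl
  rw [h1, h2, h3, ps_mo]
  have h4 : r1 m c g1 g2 (AL m γ1 0) ^ g1 = r1 m c g1 g2 (AL m γ1 0) ^ (g1 - ∑ q, (lab q).2) *
      r1 m c g1 g2 (AL m γ1 0) ^ (∑ q, (lab q).2) := by
    rw [← pow_add, Nat.sub_add_cancel hD]
  rw [h4]
  ring

/-- The seed of a triple, graded letters. -/
lemma ph_T3 (i : ℕ) (u : Fin m → ℕ) (h : 2 ≤ i + ∑ k, u k) :
    ∃ W : Polynomial (LR m), ph m (Fin 3) (T3 m i u) = Polynomial.X * W ∧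
      W.coeff 0 = C (kap i (∑ k, u k)) * X (Fin.cons i u : Fin (m + 1) → ℕ) := by
  have h1 : (T3 m i u).IsHomogeneous (2 + i + ∑ k, u k) := by
    have hL : ∀ (a : Fin 3 → ℂ) (k : Fin (m + 1)), (AL m a k).IsHomogeneous 1 := by
      intro a k
      exact IsHomogeneous.sum _ _ _ fun r _ => (isHomogeneous_X ℂ _).C_mul _
    unfold T3 RR
    refine IsHomogeneous.mul (IsHomogeneous.mul ?_ ?_) ?_
    · have := (hL aA 0).pow 2
      simpa using this
    · have := (hL aC 0).pow i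
      simpa using this
    · refine IsHomogeneous.prod _ _ _ fun k _ => ?_
      have := (hL aC k.succ).pow (u k)
      simpa using this
  have h2 : ∀ w, coeff w (T3 m i u) ≠ 0 → 4 ≤ ∑ r, ∑ i, w (i, r) := by
    intro w hw
    have h3 := h1 hw
    rw [Finsupp.weight_apply, Finsupp.sum_fintype _ _ (fun i => by simp),
      Fintype.sum_prod_type_right] at h3
    simp only [Pi.one_apply, smul_eq_mul, mul_one] at h3
    rw [h3]
    omega
  obtain ⟨R, hR⟩ := dvd_Dl h2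
  rw [Dl_apply, E3_T3, sub_eq_iff_eq_add] at hR
  refine ⟨Polynomial.C (C (kap i (∑ k, u k)) * X (Fin.cons i u : Fin (m + 1) → ℕ)) +
    Polynomial.X * R, ?_, ?_⟩
  · rw [hR]
    ring
  · simp

/-- Zero below the number of the letters. -/
lemma coeff_low {lab : Fin c → ℕ × ℕ} {nu : Fin m → ℕ} {v : MvPolynomial (Fin m × Fin c) ℂ}
    (hv : v ∈ KK m (Fin c) (fun q => (lab q).2) nu) (h1 : ∑ q, (lab q).2 ≤ g1)
    (hlab : ∀ q, 2 ≤ (lab q).1 + (lab q).2) (d : ℕ) (hd : d < c) :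
    (ph m _ (FF m lab γ1 γ2 v)).coeff d = 0 := by
  have h2 : (Polynomial.X : Polynomial (LR m)) ^ c ∣ ph m _ (FF m lab γ1 γ2 v) := by
    refine dvd_ph fun w hw => dvd_all w fun q => ?_
    rw [FF_triple γ1 γ2 hv h1 w hw q]
    have := hlab q
    omega
  exact Polynomial.X_pow_dvd_iff.1 h2 d hd

/-- The leading letters. -/
lemma coeff_top {lab : Fin c → ℕ × ℕ} {nu : Fin m → ℕ}
    (h1 : ∑ q, (lab q).2 ≤ g1)
    (hlab : ∀ q, (1 ≤ (lab q).1 ∧ 3 ≤ (lab q).1 + (lab q).2) ∨ ((lab q).1 = 0 ∧ 2 ≤ (lab q).2))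
    (hγ1 : ∀ p, γ1 p ≠ 0) (hγ2 : ∀ p, γ2 p ≠ 0) : ∃ K : ℂ, K ≠ 0 ∧
      ∀ v : MvPolynomial (Fin m × Fin c) ℂ, v ∈ KK m (Fin c) (fun q => (lab q).2) nu →
      (ph m _ (FF m lab γ1 γ2 v)).coeff c = C K * ∑ u ∈ v.support, C (coeff u v) *
        ∏ q, X (Fin.cons (lab q).1 fun k => u (k, q) : Fin (m + 1) → ℕ) := by
  obtain ⟨K1, hK1, hK1'⟩ := ph_group m g1 γ1 hγ1
  obtain ⟨K2, hK2, hK2'⟩ := ph_group m g2 γ2 hγ2
  refine ⟨K1 * K2 * ∏ q, kap (lab q).1 (lab q).2, mul_ne_zero (mul_ne_zero hK1 hK2)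
    (Finset.prod_ne_zero_iff.2 fun q _ => kap_ne _ _ (hlab q)), fun v hv => ?_⟩
  have h2 : ∀ q, 2 ≤ (lab q).1 + (lab q).2 := fun q => by
    have := hlab q
    omega
  have h3 := ph_sub_psi (F := FF m lab γ1 γ2 v) fun w hw q => by
    rw [FF_triple γ1 γ2 hv h1 w hw q]
    have := h2 q
    omega
  have h4 := Polynomial.X_pow_dvd_iff.1 h3 c (Nat.lt_succ_self c)
  rw [Polynomial.coeff_sub, sub_eq_zero] at h4
  rw [h4]
  have h5 : psi m c g1 g2 (FF m lab γ1 γ2 v) = ∑ u ∈ v.support, coeff u v •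
      (ren (m + 1) Sum.inl (∏ q, ren (m + 1) (fun r => (q, r)) (T3 m (lab q).1 fun k => u (k, q))) *
      ren (m + 1) Sum.inr (ren (m + 1) Sum.inl (AL m γ1 0 ^ g1) *
        ren (m + 1) Sum.inr (AL m γ2 0 ^ g2))) := by
    have h6 : psi m c g1 g2 (FF m lab γ1 γ2 v) = ps m γ1 γ2
        (mo m (sS lab) (pS g1 g2) (fun _ => (Sum.inr false : Fin c ⊕ Bool))
          (fun q => (lab q).2)) * aeval (fun x : Fin m × Fin c => r1 m c g1 g2 (AL m γ1 0) *
        rq m x.2 (AL m aC x.1.succ)) v := by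
      rw [FF_apply, HH_apply, ← ps_yy, ← map_mul]
      rfl
    rw [h6]
    conv_lhs => rw [← support_sum_monomial_coeff v]
    rw [map_sum, Finset.mul_sum]
    refine Finset.sum_congr rfl fun u hu => ?_
    have h7 : monomial u (coeff u v) = coeff u v • monomial u (1 : ℂ) := by
      rw [smul_monomial, smul_eq_mul, mul_one]
    rw [h7, map_smul, mul_smul_comm, ps_monomial γ1 γ2 lab h1 u
      (fun q => hv.2 u (mem_support_iff.1 hu) q)]
  rw [h5, map_sum, Polynomial.finsetSum_coeff, Finset.mul_sum]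
  refine Finset.sum_congr rfl fun u hu => ?_
  have hu' : ∀ q, ∑ k, u (k, q) = (lab q).2 := fun q => hv.2 u (mem_support_iff.1 hu) q
  rw [map_smul, ph_mul, ph_mul, ph_prod]
  choose W hW1 hW2 using fun q : Fin c => ph_T3 (lab q).1 (fun k => u (k, q))
    (by rw [hu']; exact h2 q)
  rw [Finset.prod_congr rfl fun q _ => hW1 q, Finset.prod_mul_distrib, Finset.prod_const,
    Finset.card_univ, Fintype.card_fin]
  have e1 : ph m (Fin g1) (AL m γ1 0 ^ g1) = K1 • 1 := hK1'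
  have e2 : ph m (Fin g2) (AL m γ2 0 ^ g2) = K2 • 1 := hK2'
  rw [e1, e2, smul_mul_smul_comm, mul_one, mul_smul_comm, mul_one, Polynomial.coeff_smul,
    Polynomial.coeff_smul]
  have e3 : (Polynomial.X ^ c * ∏ q, W q).coeff c = ∏ q, (W q).coeff 0 := by
    have := Polynomial.coeff_X_pow_mul (∏ q, W q) c 0
    rw [zero_add] at this
    rw [this, Polynomial.coeff_zero_eq_eval_zero, Polynomial.eval_prod]
    exact Finset.prod_congr rfl fun q _ => (Polynomial.coeff_zero_eq_eval_zero _).symm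
  rw [e3, Finset.prod_congr rfl fun q _ => hW2 q, Finset.prod_mul_distrib, smul_eq_C_mul,
    smul_eq_C_mul]
  simp only [hu', map_mul, map_prod]
  ring

end Vale.Agent.P181.ST.H662
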