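import Vale.Agent.P181.ST.H662.Sep

set_option autoImplicit false

/-!
# P181, ST (T2): `LowG`, the lower bound
-/

open MvPolynomial

namespace Vale.Agent.P181.ST.H662

open Vale.Agent.P181.DH.H674 (Th Th_ren Th_inj Th_one Th_star Ad star star_mem one_mem ren_ren)
open Vale.Agent.P181.SZR5 (ren)
open Vale.Agent.P181.T4 (HW)
open Vale.Agent.P181.TL (KK)
open Vale.Agent.P181.SZ (TI mem_TI tl)

lemma ex_gamma (g : ℕ) (hg : 2 ≤ g) : ∃ γ : Fin g → ℂ, (∀ p, γ p ≠ 0) ∧ ∑ p, γ p = 0 := by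
  obtain ⟨n, rfl⟩ : ∃ n, g = n + 1 + 1 := ⟨g - 2, by omega⟩
  refine ⟨fun p => if p = 0 then -((n : ℂ) + 1) else 1, fun p => ?_, ?_⟩
  · simp only
    split_ifs
    · exact neg_ne_zero.2 (Nat.cast_add_one_ne_zero n)
    · exact one_ne_zero
  · rw [Fin.sum_univ_succ]
    simp [Fin.succ_ne_zero]

open scoped Classical in
/-- Symmetrization. -/
noncomputable def SY (m : ℕ) (σ : Type) [Fintype σ] (N : ℕ) :
    MvPolynomial (Fin (m + 1) × σ) ℂ →ₗ[ℂ] MvPolynomial (Fin (m + 1) × Fin N) ℂ :=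
  ∑ e : σ ≃ Fin N, (ren (m + 1) (e : σ → Fin N)).toLinearMap

open scoped Classical in
lemma SY_apply {m : ℕ} {σ : Type} [Fintype σ] {N : ℕ} (F : MvPolynomial (Fin (m + 1) × σ) ℂ) :
    SY m σ N F = ∑ e : σ ≃ Fin N, ren (m + 1) (e : σ → Fin N) F := by
  rw [SY, LinearMap.sum_apply]
  rfl

lemma SY_mem {m : ℕ} {σ : Type} [Fintype σ] {N a : ℕ} {mu : Fin (m + 1) → ℕ}
    {F : MvPolynomial (Fin (m + 1) × σ) ℂ} (hF : Ad (m + 1) σ a mu F) :
    SY m σ N F ∈ TI N a (m + 1) mu := by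
  classical
  have h := fun e : σ ≃ Fin N => hF.ren e
  rw [mem_TI, SY_apply]
  refine ⟨Submodule.sum_mem _ fun s _ => (h s).1, fun s => ?_, fun v hv => ?_, fun i => ?_⟩
  · rw [map_sum]
    refine Fintype.sum_equiv (⟨fun e => e.trans s, fun e => e.trans s.symm, fun e => by
      ext x
      simp, fun e => by
      ext x
      simp⟩ : (σ ≃ Fin N) ≃ (σ ≃ Fin N)) _ _ fun e => ?_
    change ren (m + 1) s (ren (m + 1) e F) = _
    rw [ren_ren]
    rfl
  · rw [coeff_sum] at hv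
    obtain ⟨s, _, hs⟩ := Finset.exists_ne_zero_of_sum_ne_zero hv
    exact (h s).2.1 v hs
  · have h1 : ∀ j, pderiv (i, j) (∑ s : σ ≃ Fin N, ren (m + 1) (s : σ → Fin N) F) =
        ∑ s : σ ≃ Fin N, pderiv (i, j) (ren (m + 1) (s : σ → Fin N) F) :=
      fun j => map_sum _ _ _
    rw [Finset.sum_congr rfl fun j _ => h1 j, Finset.sum_comm]
    exact Finset.sum_eq_zero fun s _ => (h s).2.2 i

lemma ph_SY {m : ℕ} {σ : Type} [Fintype σ] {N : ℕ} (hσ : Fintype.card σ = N) :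
    ∃ K : ℂ, K ≠ 0 ∧ ∀ F : MvPolynomial (Fin (m + 1) × σ) ℂ,
      ph m _ (SY m σ N F) = K • ph m σ F := by
  classical
  refine ⟨(Fintype.card (σ ≃ Fin N) : ℂ), ?_, fun F => ?_⟩
  · have : Nonempty (σ ≃ Fin N) := ⟨Fintype.equivFinOfCardEq hσ⟩
    rw [Nat.cast_ne_zero]
    exact Fintype.card_ne_zero
  · rw [SY_apply, map_sum]
    have h1 : ∀ e : σ ≃ Fin N, ph m _ (ren (m + 1) (e : σ → Fin N) F) = ph m σ F := by
      intro e
      rw [ph_apply, Th_ren, ph_apply]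
    rw [Finset.sum_congr rfl fun e _ => h1 e, Finset.sum_const, Finset.card_univ,
      ← Nat.cast_smul_eq_nsmul ℂ]

/-- One more point. -/
noncomputable def upL (m n : ℕ) :
    MvPolynomial (Fin (m + 1) × Fin n) ℂ →ₗ[ℂ] MvPolynomial (Fin (m + 1) × Fin (n + 1)) ℂ :=
  ∑ s : Equiv.Perm (Fin (n + 1)), (ren (m + 1) (finSumFinEquiv.trans s)).toLinearMap ∘ₗ
    (ren (m + 1) (Sum.inl : Fin n → Fin n ⊕ Fin 1)).toLinearMap

lemma upL_apply {m n : ℕ} (f : MvPolynomial (Fin (m + 1) × Fin n) ℂ) :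
    upL m n f = star f (1 : MvPolynomial (Fin (m + 1) × Fin 1) ℂ) := by
  rw [upL, LinearMap.sum_apply]
  unfold Vale.Agent.P181.DH.H674.star
  refine Finset.sum_congr rfl fun s _ => ?_
  rw [map_one, mul_one]
  rfl

lemma Th_upL {m n : ℕ} (f : MvPolynomial (Fin (m + 1) × Fin n) ℂ) :
    Th (m + 1) _ (upL m n f) = ((n + 1).factorial : ℂ) • (Th (m + 1) _ f * X 0) := by
  rw [upL_apply, Th_star, Th_one, pow_one]

lemma ph_upL {m n : ℕ} (f : MvPolynomial (Fin (m + 1) × Fin n) ℂ) :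
    ph m _ (upL m n f) = 0 := by
  rw [ph_apply, Th_upL, map_smul, map_mul]
  have h : Phi m (X 0) = 0 := by
    rw [Phi, aeval_X, lw_zero]
  rw [h, mul_zero, smul_zero]

lemma upL_inj {m n : ℕ} {a : ℕ} {mu : Fin (m + 1) → ℕ} {f : MvPolynomial (Fin (m + 1) × Fin n) ℂ}
    (hf : f ∈ TI n a (m + 1) mu) (h : upL m n f = 0) : f = 0 := by
  apply Th_inj (mem_TI.1 hf).2.1
  have h1 := Th_upL f
  rw [h, map_zero] at h1
  have h2 := (smul_eq_zero.1 h1.symm).resolve_left (Nat.cast_ne_zero.2 (Nat.factorial_ne_zero _))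
  exact (mul_eq_zero.1 h2).resolve_right (X_ne_zero _)

/-- **(T2)** the lower bound. -/
theorem lowG : LowG := by
  classical
  intro a n m mu L hn hD hL
  let I := {P // P ∈ L}
  let c : I → ℕ := fun P => P.1.toList.length
  have hc : ∀ P : I, c P = Multiset.card P.1 := fun P => Multiset.length_toList _
  let lab : ∀ P : I, Fin (c P) → ℕ × ℕ := fun P j => P.1.toList.get j
  have hmap : ∀ P : I, Finset.univ.val.map (lab P) = P.1 := by
    intro P
    rw [Fin.univ_val_map, List.ofFn_get, Multiset.coe_toList]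
  have hmem : ∀ (P : I) q, lab P q ∈ P.1 := fun P q => Multiset.mem_toList.1 (List.get_mem _ _)
  have hfst : ∀ P : I, ∑ q, (lab P q).1 = (P.1.map Prod.fst).sum := by
    intro P
    conv_rhs => rw [← hmap P, Multiset.map_map]
    rfl
  have hsnd : ∀ P : I, ∑ q, (lab P q).2 = (P.1.map Prod.snd).sum := by
    intro P
    conv_rhs => rw [← hmap P, Multiset.map_map]
    rfl
  let g1 : I → ℕ := fun P => min a (n + 1 - 3 * c P - 2)
  let g2 : I → ℕ := fun P => n + 1 - 3 * c P - g1 P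
  have hg1 : ∀ P, g1 P = min a (n + 1 - 3 * c P - 2) := fun P => rfl
  have hg2 : ∀ P, g2 P = n + 1 - 3 * c P - g1 P := fun P => rfl
  have c1 : ∀ (P : I) q, ((1 ≤ (lab P q).1 ∧ 3 ≤ (lab P q).1 + (lab P q).2) ∨
      ((lab P q).1 = 0 ∧ 2 ≤ (lab P q).2)) ∧ (lab P q).1 + (lab P q).2 + 2 ≤ a :=
    fun P q => (hL P.1 P.2).1 _ (hmem P q)
  have c2 : ∀ P : I, 3 * c P + ∑ i, tl mu i + 4 ≤ n + 1 := fun P => by
    rw [hc]
    exact (hL P.1 P.2).2.1
  have c3 : ∀ P : I, ∑ q, (lab P q).1 + (n + 1) = mu 0 + c P := fun P => by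
    rw [hfst, hc]
    exact (hL P.1 P.2).2.2.1
  have c4 : ∀ P : I, ∑ q, (lab P q).2 = ∑ i, tl mu i := fun P => by
    rw [hsnd]
    exact (hL P.1 P.2).2.2.2
  choose γ1 hγ1 hγ1' using fun P : I => ex_gamma (g1 P) (by
    have := c2 P
    rw [hg1]
    omega)
  choose γ2 hγ2 hγ2' using fun P : I => ex_gamma (g2 P) (by
    have := c2 P
    rw [hg2, hg1]
    omega)
  have hDg : ∀ P : I, ∑ q, (lab P q).2 ≤ g1 P := by
    intro P
    have h1 := c2 P
    have h2 := c4 P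
    rw [hg1]
    omega
  have hcard : ∀ P : I, Fintype.card (Pt (c P) (g1 P) (g2 P)) = n + 1 := by
    intro P
    simp only [Fintype.card_sum, Fintype.card_prod, Fintype.card_fin]
    have h1 := c2 P
    rw [hg2, hg1]
    omega
  have hAd : ∀ (P : I) (v : MvPolynomial (Fin m × Fin (c P)) ℂ),
      v ∈ GP m (Fin (c P)) (lab P) (tl mu) →
      Ad (m + 1) (Pt (c P) (g1 P) (g2 P)) a mu (FF m (lab P) (γ1 P) (γ2 P) v) := by
    intro P v hv
    have hK : v ∈ KK m (Fin (c P)) (fun q => (lab P q).2) (tl mu) := ⟨hv.1, hv.2.1⟩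
    refine ⟨?_, fun w hw y => FF_col (γ1 P) (γ2 P) hK (hDg P) ?_ ?_ (fun q => (c1 P q).2) w hw y,
      FF_tr (γ1 P) (γ2 P) (hγ1' P) (hγ2' P) v⟩
    · have h1 := FF_mem (γ1 P) (γ2 P) hK (hDg P) (L := mu 0) (by
        have h1 := c2 P
        have h2 := c3 P
        have h3 := c4 P
        have h4 := hg1 P
        have h5 := hg2 P
        simp only [sS, Finset.sum_add_distrib]
        omega)
      have h2 : (Fin.cons (mu 0) (tl mu) : Fin (m + 1) → ℕ) = mu := by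
        funext i
        refine Fin.cases rfl (fun i => rfl) i
      rw [h2] at h1
      exact h1
    · rw [hg1]
      exact min_le_left _ _
    · have h1 := c2 P
      rw [hg2, hg1]
      omega
  let A1 : TI n a (m + 1) mu →ₗ[ℂ] TI (n + 1) a (m + 1) mu :=
    ((upL m n).domRestrict _).codRestrict _ (fun f => by
      rw [LinearMap.domRestrict_apply, upL_apply]
      have h1 := star_mem f.2 (one_mem a 1 (m + 1))
      rwa [add_zero] at h1)
  let A2 : ∀ P : I, GP m (Fin (c P)) (lab P) (tl mu) →ₗ[ℂ] TI (n + 1) a (m + 1) mu := fun P =>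
    (((SY m (Pt (c P) (g1 P) (g2 P)) (n + 1)) ∘ₗ (FF m (lab P) (γ1 P) (γ2 P))).domRestrict
      _).codRestrict _ (fun v => SY_mem (hAd P v v.2))
  let Λ : (TI n a (m + 1) mu × ∀ P : I, GP m (Fin (c P)) (lab P) (tl mu)) →ₗ[ℂ]
      TI (n + 1) a (m + 1) mu := A1.coprod (∑ P : I, (A2 P) ∘ₗ LinearMap.proj P)
  have hΛ : ∀ x, ((Λ x : TI (n + 1) a (m + 1) mu) : MvPolynomial (Fin (m + 1) × Fin (n + 1)) ℂ) =
      upL m n (x.1 : MvPolynomial (Fin (m + 1) × Fin n) ℂ) +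
        ∑ P : I, SY m (Pt (c P) (g1 P) (g2 P)) (n + 1) (FF m (lab P) (γ1 P) (γ2 P)
          (x.2 P : MvPolynomial (Fin m × Fin (c P)) ℂ)) := by
    intro x
    rw [LinearMap.coprod_apply, Submodule.coe_add, LinearMap.sum_apply, Submodule.coe_sum]
    rfl
  have hinj : Function.Injective Λ := by
    rw [← LinearMap.ker_eq_bot, LinearMap.ker_eq_bot']
    intro x hx
    have h0 := hΛ x
    rw [hx, Submodule.coe_zero] at h0
    choose K hK0 hK1 using fun P : I => ph_SY (m := m) (hcard P)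
    have h1 := congrArg (ph m (Fin (n + 1))) h0
    rw [map_zero, map_add, ph_upL, zero_add, map_sum, Finset.sum_congr rfl fun P _ => hK1 P _]
      at h1
    have h2 := indep c g1 g2 lab γ1 γ2 (tl mu) hDg (fun P q => (c1 P q).1) hγ1 hγ2
      (fun P Q hPQ => by
        rw [hmap, hmap] at hPQ
        exact Subtype.ext hPQ) K hK0 x.2 h1.symm
    have h3 : x.2 = 0 := funext h2
    have h4 : x.1 = 0 := by
      apply Subtype.ext
      refine upL_inj x.1.2 ?_
      rw [h3] at h0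
      simpa using h0.symm
    exact Prod.ext h4 h3
  have h := LinearMap.finrank_le_finrank_of_injective hinj
  rw [Module.finrank_prod, Module.finrank_pi_fintype] at h
  have h2 : ∑ P ∈ L, G m (tl mu) P =
      ∑ P : I, Module.finrank ℂ (GP m (Fin (c P)) (lab P) (tl mu)) :=
    (Finset.sum_coe_sort L (fun P => G m (tl mu) P)).symm
  rw [h2]
  exact h

end Vale.Agent.P181.ST.H662
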