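import Vale.Agent.P181.DH.H674.Star

set_option autoImplicit false

/-!
# P181, ST (T2): the letters modulo the empty letter, graded by the letters different from `e_0`
-/

open MvPolynomial

namespace Vale.Agent.P181.ST.H662

open Vale.Agent.P181.DH.H674 (Th cont col Th_monomial Th_mul Th_ren map_at pinj)
open Vale.Agent.P181.SZR5 (ren)

/-- The letters. -/
abbrev LR (m : ℕ) : Type := MvPolynomial (Fin (m + 1) → ℕ) ℂ

/-- The unit column. -/
def e0 (m : ℕ) : Fin (m + 1) → ℕ := Pi.single 0 1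

open scoped Classical in
/-- The weight of a letter. -/
noncomputable def lw (m : ℕ) (y : Fin (m + 1) → ℕ) : Polynomial (LR m) :=
  if y = 0 then 0 else if y = e0 m then 1 else Polynomial.X * Polynomial.C (X y)

lemma lw_zero (m : ℕ) : lw m 0 = 0 := if_pos rfl

lemma e0_ne (m : ℕ) : e0 m ≠ 0 := by
  intro h
  have := congrFun h 0
  simp [e0] at this

lemma lw_e0 (m : ℕ) : lw m (e0 m) = 1 := by
  rw [lw, if_neg (e0_ne m), if_pos rfl]

lemma lw_big {m : ℕ} {y : Fin (m + 1) → ℕ} (h : y ≠ 0) (h' : y ≠ e0 m) :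
    lw m y = Polynomial.X * Polynomial.C (X y) := by
  rw [lw, if_neg h, if_neg h']

lemma X_dvd_lw {m : ℕ} {y : Fin (m + 1) → ℕ} (h' : y ≠ e0 m) : Polynomial.X ∣ lw m y := by
  by_cases h : y = 0
  · rw [h, lw_zero]
    exact dvd_zero _
  · rw [lw_big h h']
    exact Dvd.intro _ rfl

/-- The homomorphism. -/
noncomputable def Phi (m : ℕ) : LR m →ₐ[ℂ] Polynomial (LR m) := aeval (lw m)

/-- The graded letters of a polynomial. -/
noncomputable def ph (m : ℕ) (σ : Type) [Fintype σ] :
    MvPolynomial (Fin (m + 1) × σ) ℂ →ₗ[ℂ] Polynomial (LR m) :=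
  (Phi m).toLinearMap ∘ₗ Th (m + 1) σ

variable {m : ℕ} {σ τ : Type}

lemma ph_apply [Fintype σ] (f : MvPolynomial (Fin (m + 1) × σ) ℂ) :
    ph m σ f = Phi m (Th (m + 1) σ f) := rfl

lemma ph_monomial [Fintype σ] (v : Fin (m + 1) × σ →₀ ℕ) (r : ℂ) :
    ph m σ (monomial v r) = r • ∏ c, lw m (col v c) := by
  rw [ph_apply, Th_monomial, cont, monomial_sum_index, map_mul, map_prod, Algebra.smul_def]
  congr 1
  · exact (Phi m).commutes r
  · refine Finset.prod_congr rfl fun c _ => ?_
    exact aeval_X _ _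

lemma ph_mul [Fintype σ] [Fintype τ] (f : MvPolynomial (Fin (m + 1) × σ) ℂ)
    (g : MvPolynomial (Fin (m + 1) × τ) ℂ) :
    ph m (σ ⊕ τ) (ren (m + 1) Sum.inl f * ren (m + 1) Sum.inr g) = ph m σ f * ph m τ g := by
  rw [ph_apply, Th_mul, map_mul]
  rfl

lemma prod_monomial {I J : Type} (s : Finset J) (a : J → I →₀ ℕ) (r : J → ℂ) :
    ∏ q ∈ s, monomial (a q) (r q) = monomial (∑ q ∈ s, a q) (∏ q ∈ s, r q) := by
  classical
  induction s using Finset.induction_on with
  | empty => simp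
  | insert x s hx ih => rw [Finset.prod_insert hx, ih, monomial_mul, Finset.sum_insert hx,
      Finset.prod_insert hx]

lemma ph_sum [Fintype σ] (f : MvPolynomial (Fin (m + 1) × σ) ℂ) :
    ph m σ f = ∑ v ∈ f.support, coeff v f • ∏ c, lw m (col v c) := by
  conv_lhs => rw [← support_sum_monomial_coeff f]
  rw [map_sum]
  exact Finset.sum_congr rfl fun v _ => ph_monomial _ _

/-- Products over disjoint blocks. -/
lemma ph_prod {Q : Type} [Fintype Q] [Fintype τ] (G : Q → MvPolynomial (Fin (m + 1) × τ) ℂ) :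
    ph m (Q × τ) (∏ q, ren (m + 1) (fun r => (q, r)) (G q)) = ∏ q, ph m τ (G q) := by
  classical
  have h1 : ∀ q, ren (m + 1) (fun r : τ => ((q, r) : Q × τ)) (G q) = ∑ v ∈ (G q).support,
      monomial (v.mapDomain (fun p : Fin (m + 1) × τ => (p.1, ((q, p.2) : Q × τ))))
        (coeff v (G q)) := by
    intro q
    conv_lhs => rw [← support_sum_monomial_coeff (G q)]
    rw [map_sum]
    refine Finset.sum_congr rfl fun v _ => ?_
    rw [ren, rename_monomial]
  rw [Finset.prod_congr rfl fun q _ => h1 q, Finset.prod_univ_sum, map_sum,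
    Finset.prod_congr rfl fun q _ => ph_sum (G q), Finset.prod_univ_sum]
  refine Finset.sum_congr rfl fun f _ => ?_
  rw [prod_monomial, ph_monomial, Finset.prod_smul, Fintype.prod_prod_type]
  congr 1
  refine Finset.prod_congr rfl fun q _ => Finset.prod_congr rfl fun c _ => ?_
  congr 1
  funext i
  unfold col
  rw [Finsupp.finsetSum_apply, Finset.sum_eq_single q]
  · exact map_at (σ := τ) (τ := Q × τ) (e := fun r => (q, r)) (fun a b h => congrArg Prod.snd h)
      (f q) i c
  · intro q' _ hq'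
    apply Finsupp.mapDomain_of_notMem_range
    rintro ⟨p, hp⟩
    exact hq' (congrArg (fun z => z.2.1) hp)
  · intro h
    exact absurd (Finset.mem_univ _) h

lemma dvd_ph [Fintype σ] {F : MvPolynomial (Fin (m + 1) × σ) ℂ} {D : Polynomial (LR m)}
    (h : ∀ v, coeff v F ≠ 0 → D ∣ ∏ c, lw m (col v c)) : D ∣ ph m σ F := by
  rw [ph_sum]
  refine Finset.dvd_sum fun v hv => ?_
  rw [Algebra.smul_def]
  exact Dvd.dvd.mul_left (h v (mem_support_iff.1 hv)) _

end Vale.Agent.P181.ST.H662
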