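import Vale.Agent.P181.ST.H662.Phi

set_option autoImplicit false

/-!
# P181, ST (T2): a group of points whose degree is the number of the points
-/

open MvPolynomial

namespace Vale.Agent.P181.ST.H662

open Vale.Agent.P181.DH.H674 (col)

variable {m : ℕ}

lemma ph_group (m : ℕ) (g : ℕ) (γ : Fin g → ℂ) (hγ : ∀ p, γ p ≠ 0) : ∃ K : ℂ, K ≠ 0 ∧
    ph m (Fin g) ((∑ p, C (γ p) * X (0, p)) ^ g) = K • 1 := by
  classical
  refine ⟨∑ p : Fin g → Fin g, if Function.Bijective p then ∏ i, γ (p i) else 0, ?_, ?_⟩
  · have h1 : ∀ p : Fin g → Fin g, (if Function.Bijective p then ∏ i, γ (p i) else 0) =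
        (if Function.Bijective p then 1 else 0) * ∏ i, γ i := by
      intro p
      split_ifs with h
      · rw [one_mul]
        exact Function.Bijective.prod_comp h γ
      · rw [zero_mul]
    rw [Finset.sum_congr rfl fun p _ => h1 p, ← Finset.sum_mul]
    refine mul_ne_zero ?_ (Finset.prod_ne_zero_iff.2 fun i _ => hγ i)
    rw [Finset.sum_boole, Nat.cast_ne_zero]
    exact Finset.card_ne_zero_of_mem (a := id)
      (Finset.mem_filter.2 ⟨Finset.mem_univ _, Function.bijective_id⟩)
  · rw [Fintype.sum_pow, map_sum, Finset.sum_smul]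
    refine Finset.sum_congr rfl fun p _ => ?_
    rw [Finset.prod_congr rfl fun i _ => C_mul_X_eq_monomial (a := γ (p i))
      (s := ((0, p i) : Fin (m + 1) × Fin g)), prod_monomial, ph_monomial]
    have hcol : ∀ (c : Fin g) (k : Fin (m + 1)),
        col (∑ i, Finsupp.single ((0, p i) : Fin (m + 1) × Fin g) 1) c k =
          ∑ i, if (0 = k ∧ p i = c) then 1 else 0 := by
      intro c k
      unfold col
      rw [Finsupp.finsetSum_apply]
      refine Finset.sum_congr rfl fun i _ => ?_
      rw [Finsupp.single_apply]
      simp only [Prod.mk.injEq]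
    split_ifs with h
    · congr 1
      refine Finset.prod_eq_one fun c _ => ?_
      have : col (∑ i, Finsupp.single ((0, p i) : Fin (m + 1) × Fin g) 1) c = e0 m := by
        funext k
        rw [hcol, e0]
        by_cases hk : k = 0
        · subst hk
          obtain ⟨i0, hi0⟩ := h.2 c
          rw [Pi.single_eq_same, Finset.sum_eq_single i0]
          · simp [hi0]
          · intro i _ hi
            rw [if_neg]
            rintro ⟨-, h'⟩
            exact hi (h.1 (h'.trans hi0.symm))
          · intro h'
            exact absurd (Finset.mem_univ _) h'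
        · rw [Pi.single_eq_of_ne hk]
          exact Finset.sum_eq_zero fun i _ => if_neg fun h' => hk h'.1.symm
      rw [this, lw_e0]
    · rw [zero_smul]
      have h1 : ¬ Function.Surjective p := fun h' => h ⟨Finite.injective_iff_surjective.2 h', h'⟩
      simp only [Function.Surjective, not_forall, not_exists] at h1
      obtain ⟨c, hc⟩ := h1
      have h2 : ∏ c, lw m (col (∑ i, Finsupp.single ((0, p i) : Fin (m + 1) × Fin g) 1) c) = 0 := by
        refine Finset.prod_eq_zero (Finset.mem_univ c) ?_
        have : col (∑ i, Finsupp.single ((0, p i) : Fin (m + 1) × Fin g) 1) c = 0 := by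
          funext k
          rw [hcol]
          exact Finset.sum_eq_zero fun i _ => if_neg fun h' => hc i h'.2
        rw [this, lw_zero]
      rw [h2, smul_zero]

end Vale.Agent.P181.ST.H662
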