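import Vale.Agent.P181.ST.H662.Kap
import Vale.Agent.P181.ST.H662.Zg
import Vale.Agent.P181.DG6.H887.Sub
import Vale.Agent.P181.TL.H248.T4

set_option autoImplicit false

/-!
# P181, ST (T2): the seed polynomial
-/

open MvPolynomial

namespace Vale.Agent.P181.ST.H662

open Vale.Agent.P181.DH.H674 (col)
open Vale.Agent.P181.SZR5 (ren ren_X)
open Vale.Agent.P181.T4 (HW)
open Vale.Agent.P181.TL (KK)
open Vale.Agent.P181.TL.H248 (HH HH_apply HH_mem_HW HH_col mo hd yy)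
open Vale.Agent.P181.DG6.H887 (lsub lsub_X lsub_mem_HW lsub_deg tr_lsub)

variable {m : ℕ}

/-- The source columns: the letters, the differences `y - y'`, the two groups. -/
abbrev Src (c : ℕ) : Type := Fin c ⊕ (Fin c ⊕ Bool)

/-- The points. -/
abbrev Pt (c g1 g2 : ℕ) : Type := (Fin c × Fin 3) ⊕ (Fin g1 ⊕ Fin g2)

/-- The block of a source column. -/
def kS {c : ℕ} : Src c → Fin c ⊕ Bool
  | Sum.inl q => Sum.inl q
  | Sum.inr (Sum.inl q) => Sum.inl q
  | Sum.inr (Sum.inr b) => Sum.inr b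

/-- The block of a point. -/
def kP {c g1 g2 : ℕ} : Pt c g1 g2 → Fin c ⊕ Bool
  | Sum.inl x => Sum.inl x.1
  | Sum.inr (Sum.inl _) => Sum.inr false
  | Sum.inr (Sum.inr _) => Sum.inr true

/-- The linear substitution. -/
def MA {c g1 g2 : ℕ} (γ1 : Fin g1 → ℂ) (γ2 : Fin g2 → ℂ) : Src c → Pt c g1 g2 → ℂ
  | Sum.inl q, Sum.inl x => if x.1 = q then aC x.2 else 0
  | Sum.inr (Sum.inl q), Sum.inl x => if x.1 = q then aA x.2 else 0
  | Sum.inr (Sum.inr false), Sum.inr (Sum.inl p) => γ1 p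
  | Sum.inr (Sum.inr true), Sum.inr (Sum.inr p) => γ2 p
  | _, _ => 0

lemma MA_block {c g1 g2 : ℕ} (γ1 : Fin g1 → ℂ) (γ2 : Fin g2 → ℂ) (x : Src c) (y : Pt c g1 g2)
    (h : MA γ1 γ2 x y ≠ 0) : kP y = kS x := by
  rcases x with q | q | b
  · rcases y with z | p | p
    · simp only [MA] at h
      by_cases hz : z.1 = q
      · simp [kP, kS, hz]
      · rw [if_neg hz] at h
        exact absurd rfl h
    · exact absurd rfl h
    · exact absurd rfl h
  · rcases y with z | p | p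
    · simp only [MA] at h
      by_cases hz : z.1 = q
      · simp [kP, kS, hz]
      · rw [if_neg hz] at h
        exact absurd rfl h
    · exact absurd rfl h
    · exact absurd rfl h
  · cases b
    · rcases y with z | p | p
      · exact absurd rfl h
      · rfl
      · exact absurd rfl h
    · rcases y with z | p | p
      · exact absurd rfl h
      · exact absurd rfl h
      · rfl

/-- Column degrees of the letters. -/
def sS {c : ℕ} (lab : Fin c → ℕ × ℕ) : Fin c → ℕ := fun q => (lab q).1 + (lab q).2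

/-- Column degrees of the heads. -/
def pS {c : ℕ} (g1 g2 : ℕ) : Fin c ⊕ Bool → ℕ := Sum.elim (fun _ => 2) fun b => if b then g2 else g1

/-- The seed. -/
noncomputable def FF (m : ℕ) {c g1 g2 : ℕ} (lab : Fin c → ℕ × ℕ) (γ1 : Fin g1 → ℂ)
    (γ2 : Fin g2 → ℂ) :
    MvPolynomial (Fin m × Fin c) ℂ →ₗ[ℂ] MvPolynomial (Fin (m + 1) × Pt c g1 g2) ℂ :=
  (lsub (m + 1) (MA γ1 γ2)).toLinearMap ∘ₗ
    HH m (sS lab) (pS g1 g2) (fun _ => Sum.inr false) (fun q => (lab q).2)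

lemma FF_apply {c g1 g2 : ℕ} (lab : Fin c → ℕ × ℕ) (γ1 : Fin g1 → ℂ) (γ2 : Fin g2 → ℂ)
    (v : MvPolynomial (Fin m × Fin c) ℂ) : FF m lab γ1 γ2 v = lsub (m + 1) (MA γ1 γ2)
      (HH m (sS lab) (pS g1 g2) (fun _ => Sum.inr false) (fun q => (lab q).2) v) := rfl

lemma hd_eq {c : ℕ} (d : Fin c → ℕ) (h : Fin c ⊕ Bool) :
    hd (fun _ => (Sum.inr false : Fin c ⊕ Bool)) d h = if h = Sum.inr false then ∑ q, d q else 0 := by
  classical
  unfold hd
  rw [Finset.sum_filter]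
  by_cases hh : h = Sum.inr false
  · rw [if_pos hh]
    exact Finset.sum_congr rfl fun q _ => if_pos hh.symm
  · rw [if_neg hh]
    exact Finset.sum_eq_zero fun q _ => if_neg fun h' => hh h'.symm

lemma hd_le {c g1 g2 : ℕ} (d : Fin c → ℕ) (h1 : ∑ q, d q ≤ g1) (h : Fin c ⊕ Bool) :
    hd (fun _ => (Sum.inr false : Fin c ⊕ Bool)) d h ≤ pS g1 g2 h := by
  rw [hd_eq]
  split_ifs with hh
  · rw [hh]
    exact h1
  · exact Nat.zero_le _

section mem

variable {c g1 g2 : ℕ} {lab : Fin c → ℕ × ℕ} {nu : Fin m → ℕ} {v : MvPolynomial (Fin m × Fin c) ℂ}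

lemma FF_mem (γ1 : Fin g1 → ℂ) (γ2 : Fin g2 → ℂ)
    (hv : v ∈ KK m (Fin c) (fun q => (lab q).2) nu) (h1 : ∑ q, (lab q).2 ≤ g1) {L : ℕ}
    (hL : ∑ q, (sS lab q) + (2 * c + g1 + g2) = L + ∑ i, nu i) :
    FF m lab γ1 γ2 v ∈ HW (m + 1) (Pt c g1 g2) (Fin.cons L nu) := by
  rw [FF_apply]
  refine lsub_mem_HW _ (HH_mem_HW (fun q => Nat.le_add_left _ _) (hd_le _ h1) ?_ hv)
  rw [← hL]
  congr 1
  rw [pS, Fintype.sum_sum_type]
  simp only [Sum.elim_inl, Sum.elim_inr, Fintype.sum_bool, Finset.sum_const, Finset.card_univ,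
    Fintype.card_fin, smul_eq_mul, if_true, Bool.false_eq_true, if_false]
  ring

lemma FF_block (γ1 : Fin g1 → ℂ) (γ2 : Fin g2 → ℂ)
    (hv : v ∈ KK m (Fin c) (fun q => (lab q).2) nu) (h1 : ∑ q, (lab q).2 ≤ g1)
    (w : Fin (m + 1) × Pt c g1 g2 →₀ ℕ) (hw : coeff w (FF m lab γ1 γ2 v) ≠ 0) (β : Fin c ⊕ Bool) :
    (∑ y, if kP y = β then ∑ i, w (i, y) else 0) =
      Sum.elim (fun q => (lab q).1 + (lab q).2 + 2) (fun b => if b then g2 else g1) β := by
  rw [FF_apply] at hw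
  refine lsub_deg (MA γ1 γ2) (fun x => kS x = β) (fun y => kP y = β) ?_ ?_ w hw
  · intro x y hxy
    rw [MA_block γ1 γ2 x y hxy]
  · intro u hu
    have h2 := HH_col (fun q => Nat.le_add_left _ _) (hd_le _ h1) hv u hu
    rw [Finset.sum_congr rfl fun x _ => by rw [h2 x], Fintype.sum_sum_type, Fintype.sum_sum_type]
    rcases β with q | b
    · rw [Finset.sum_eq_single q, Finset.sum_eq_single q]
      · simp [kS, sS, pS]
      · intro q' _ hq'
        simp [kS, hq']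
      · intro h
        exact absurd (Finset.mem_univ _) h
      · intro q' _ hq'
        simp [kS, hq']
      · intro h
        exact absurd (Finset.mem_univ _) h
    · rw [Finset.sum_eq_zero, Finset.sum_eq_zero]
      · cases b <;> simp [kS, pS]
      · intro q' _
        simp [kS]
      · intro q' _
        simp [kS]

/-- The degree of a triple. -/
lemma FF_triple (γ1 : Fin g1 → ℂ) (γ2 : Fin g2 → ℂ)
    (hv : v ∈ KK m (Fin c) (fun q => (lab q).2) nu) (h1 : ∑ q, (lab q).2 ≤ g1)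
    (w : Fin (m + 1) × Pt c g1 g2 →₀ ℕ) (hw : coeff w (FF m lab γ1 γ2 v) ≠ 0) (q : Fin c) :
    ∑ r, ∑ i, w (i, Sum.inl (q, r)) = (lab q).1 + (lab q).2 + 2 := by
  have h := FF_block γ1 γ2 hv h1 w hw (Sum.inl q)
  rw [Fintype.sum_sum_type, Fintype.sum_prod_type, Finset.sum_eq_single q, Fintype.sum_sum_type]
    at h
  · simpa [kP] using h
  · intro q' _ hq'
    simp [kP, hq']
  · intro h
    exact absurd (Finset.mem_univ _) h

/-- The degree of a column. -/
lemma FF_col (γ1 : Fin g1 → ℂ) (γ2 : Fin g2 → ℂ)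
    (hv : v ∈ KK m (Fin c) (fun q => (lab q).2) nu) (h1 : ∑ q, (lab q).2 ≤ g1) {a : ℕ}
    (hg1 : g1 ≤ a) (hg2 : g2 ≤ a) (hlab : ∀ q, (lab q).1 + (lab q).2 + 2 ≤ a)
    (w : Fin (m + 1) × Pt c g1 g2 →₀ ℕ) (hw : coeff w (FF m lab γ1 γ2 v) ≠ 0)
    (y : Pt c g1 g2) : ∑ i, w (i, y) ≤ a := by
  have h := FF_block γ1 γ2 hv h1 w hw (kP y)
  have h2 : ∑ i, w (i, y) ≤ ∑ y', if kP y' = kP y then ∑ i, w (i, y') else 0 := by
    have := Finset.single_le_sum (f := fun y' : Pt c g1 g2 => if kP y' = kP y then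
      ∑ i, w (i, y') else 0) (fun _ _ => Nat.zero_le _) (Finset.mem_univ y)
    simpa using this
  refine h2.trans (h.le.trans ?_)
  rcases kP y with q | b
  · exact hlab q
  · cases b
    · exact hg1
    · exact hg2

lemma FF_tr (γ1 : Fin g1 → ℂ) (γ2 : Fin g2 → ℂ) (hs1 : ∑ p, γ1 p = 0) (hs2 : ∑ p, γ2 p = 0)
    (v : MvPolynomial (Fin m × Fin c) ℂ) (i : Fin (m + 1)) :
    ∑ y, pderiv (i, y) (FF m lab γ1 γ2 v) = 0 := by
  rw [FF_apply]
  refine tr_lsub (MA γ1 γ2) (fun y => y) ?_ i _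
  intro x
  rw [Fintype.sum_sum_type, Fintype.sum_sum_type, Fintype.sum_prod_type]
  rcases x with q | q | b
  · rw [Finset.sum_eq_single q]
    · simp [MA, aC, Fin.sum_univ_three]
      norm_num
    · intro q' _ hq'
      simp [MA, hq']
    · intro h
      exact absurd (Finset.mem_univ _) h
  · rw [Finset.sum_eq_single q]
    · simp [MA, aA, Fin.sum_univ_three]
    · intro q' _ hq'
      simp [MA, hq']
    · intro h
      exact absurd (Finset.mem_univ _) h
  · cases b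
    · simp [MA, hs1]
    · simp [MA, hs2]

end mem

end Vale.Agent.P181.ST.H662
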