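import Vale.Agent.P181.ST.H662.Lead
import Vale.Agent.P181.ST.Defs

set_option autoImplicit false

/-!
# P181, ST (T2): the seeds are independent
-/

open MvPolynomial

namespace Vale.Agent.P181.ST.H662

open Vale.Agent.P181.DH.H674 (col map_at pinj)
open Vale.Agent.P181.TL (KK)

variable {m : ℕ}

/-- The letter monomial. -/
noncomputable def MM {c : ℕ} (lab : Fin c → ℕ × ℕ) (u : Fin m × Fin c →₀ ℕ) :
    (Fin (m + 1) → ℕ) →₀ ℕ :=
  ∑ q, Finsupp.single (Fin.cons (lab q).1 fun k => u (k, q) : Fin (m + 1) → ℕ) 1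

lemma prod_MM {c : ℕ} (lab : Fin c → ℕ × ℕ) (u : Fin m × Fin c →₀ ℕ) :
    (∏ q, X (Fin.cons (lab q).1 fun k => u (k, q) : Fin (m + 1) → ℕ) : LR m) =
      monomial (MM lab u) 1 := (monomial_sum_one _ _).symm

lemma toMultiset_MM {c : ℕ} (lab : Fin c → ℕ × ℕ) (u : Fin m × Fin c →₀ ℕ) :
    Finsupp.toMultiset (MM lab u) = Finset.univ.val.map
      (fun q => (Fin.cons (lab q).1 fun k => u (k, q) : Fin (m + 1) → ℕ)) := by
  rw [MM, map_sum]
  simp only [Finsupp.toMultiset_single, one_smul]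
  have h := Multiset.sum_map_singleton (Multiset.map
    (fun q : Fin c => (Fin.cons (lab q).1 fun k => u (k, q) : Fin (m + 1) → ℕ)) Finset.univ.val)
  rw [Multiset.map_map] at h
  exact h

lemma MM_lab {c c' : ℕ} {lab : Fin c → ℕ × ℕ} {lab' : Fin c' → ℕ × ℕ} {u : Fin m × Fin c →₀ ℕ}
    {u' : Fin m × Fin c' →₀ ℕ} (hu : ∀ q, ∑ k, u (k, q) = (lab q).2)
    (hu' : ∀ q, ∑ k, u' (k, q) = (lab' q).2) (h : MM lab u = MM lab' u') :
    Finset.univ.val.map lab = Finset.univ.val.map lab' := by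
  have h1 := congrArg (fun M => (Finsupp.toMultiset M).map
    (fun y : Fin (m + 1) → ℕ => (y 0, ∑ k : Fin m, y k.succ))) h
  simp only [toMultiset_MM, Multiset.map_map, Function.comp_def, Fin.cons_zero, Fin.cons_succ,
    hu, hu'] at h1
  exact h1

lemma coeff_eq_of_MM {c : ℕ} {lab : Fin c → ℕ × ℕ} {nu : Fin m → ℕ}
    {v : MvPolynomial (Fin m × Fin c) ℂ} (hv : v ∈ GP m (Fin c) lab nu) {u u' : Fin m × Fin c →₀ ℕ}
    (hu : ∀ q, ∑ k, u (k, q) = (lab q).2) (hu' : ∀ q, ∑ k, u' (k, q) = (lab q).2)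
    (h : MM lab u = MM lab u') : coeff u v = coeff u' v := by
  classical
  let y : Fin c → Fin (m + 1) → ℕ := fun q => Fin.cons (lab q).1 fun k => u (k, q)
  let y' : Fin c → Fin (m + 1) → ℕ := fun q => Fin.cons (lab q).1 fun k => u' (k, q)
  have hap : ∀ (u : Fin m × Fin c →₀ ℕ) (z : Fin (m + 1) → ℕ), MM lab u z =
      (Finset.univ.filter fun q : Fin c =>
        (Fin.cons (lab q).1 fun k => u (k, q) : Fin (m + 1) → ℕ) = z).card := by
    intro u z
    rw [MM, Finsupp.finsetSum_apply, Finset.card_filter]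
    exact Finset.sum_congr rfl fun q _ => Finsupp.single_apply
  have hc : ∀ z : Fin (m + 1) → ℕ, Fintype.card {q : Fin c // y q = z} =
      Fintype.card {q : Fin c // y' q = z} := by
    intro z
    have h1 := congrArg (fun F => F z) h
    simp only [hap] at h1
    rw [Fintype.card_subtype, Fintype.card_subtype]
    exact h1
  let e : Equiv.Perm (Fin c) := Equiv.ofFiberEquiv (f := y) (g := y')
    fun z => Fintype.equivOfCardEq (hc z)
  have he : ∀ q, y' (e q) = y q := fun q => Equiv.ofFiberEquiv_map _ q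
  have h0 : ∀ q, (lab (e q)).1 = (lab q).1 := fun q => congrFun (he q) 0
  have hk : ∀ k q, u' (k, e q) = u (k, q) := fun k q => congrFun (he q) k.succ
  have h1 : ∀ q, lab (e q) = lab q := by
    intro q
    refine Prod.ext (h0 q) ?_
    rw [← hu', ← hu]
    exact Finset.sum_congr rfl fun k _ => hk k q
  have h2 : u.mapDomain (fun p : Fin m × Fin c => (p.1, e p.2)) = u' := by
    ext ⟨i, q⟩
    obtain ⟨q', rfl⟩ := e.surjective q
    rw [map_at e.injective]
    exact (hk i q').symm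
  calc coeff u v = coeff (u.mapDomain (fun p : Fin m × Fin c => (p.1, e p.2)))
        (rename (fun p : Fin m × Fin c => (p.1, e p.2)) v) :=
        (coeff_rename_mapDomain _ (pinj e.injective) _ _).symm
    _ = coeff u' v := by rw [h2, hv.2.2 e h1]

/-- The letters of a polynomial with labels. -/
noncomputable def VV {c : ℕ} (lab : Fin c → ℕ × ℕ) (v : MvPolynomial (Fin m × Fin c) ℂ) : LR m :=
  ∑ u ∈ v.support, C (coeff u v) * ∏ q, X (Fin.cons (lab q).1 fun k => u (k, q) : Fin (m + 1) → ℕ)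

open scoped Classical in
lemma coeff_VV {c : ℕ} (lab : Fin c → ℕ × ℕ) (v : MvPolynomial (Fin m × Fin c) ℂ)
    (M : (Fin (m + 1) → ℕ) →₀ ℕ) : coeff M (VV lab v) =
      ∑ u ∈ v.support, if MM lab u = M then coeff u v else 0 := by
  rw [VV, coeff_sum]
  refine Finset.sum_congr rfl fun u _ => ?_
  rw [prod_MM, coeff_C_mul, coeff_monomial]
  split_ifs <;> simp

lemma coeff_VV_ne {c : ℕ} {lab : Fin c → ℕ × ℕ} {nu : Fin m → ℕ}
    {v : MvPolynomial (Fin m × Fin c) ℂ} (hv : v ∈ GP m (Fin c) lab nu) {u : Fin m × Fin c →₀ ℕ}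
    (hu : coeff u v ≠ 0) : coeff (MM lab u) (VV lab v) ≠ 0 := by
  classical
  rw [coeff_VV, ← Finset.sum_filter, Finset.sum_congr rfl fun u' hu' =>
    coeff_eq_of_MM hv (hv.2.1 u' (mem_support_iff.1 (Finset.mem_filter.1 hu').1)) (hv.2.1 u hu)
      (Finset.mem_filter.1 hu').2, Finset.sum_const, nsmul_eq_mul]
  refine mul_ne_zero ?_ hu
  rw [Nat.cast_ne_zero]
  exact Finset.card_ne_zero_of_mem (a := u) (Finset.mem_filter.2 ⟨mem_support_iff.2 hu, rfl⟩)

/-- Independence. -/
theorem indep {I : Type} [Fintype I] (c g1 g2 : I → ℕ) (lab : ∀ i, Fin (c i) → ℕ × ℕ)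
    (γ1 : ∀ i, Fin (g1 i) → ℂ) (γ2 : ∀ i, Fin (g2 i) → ℂ) (nu : Fin m → ℕ)
    (h1 : ∀ i, ∑ q, (lab i q).2 ≤ g1 i)
    (hlab : ∀ i q, (1 ≤ (lab i q).1 ∧ 3 ≤ (lab i q).1 + (lab i q).2) ∨
      ((lab i q).1 = 0 ∧ 2 ≤ (lab i q).2))
    (hγ1 : ∀ i p, γ1 i p ≠ 0) (hγ2 : ∀ i p, γ2 i p ≠ 0)
    (hd : ∀ i j, Finset.univ.val.map (lab i) = Finset.univ.val.map (lab j) → i = j)
    (N : I → ℂ) (hN : ∀ i, N i ≠ 0) (x : ∀ i, GP m (Fin (c i)) (lab i) nu)
    (h : ∑ i, N i • ph m _ (FF m (lab i) (γ1 i) (γ2 i)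
      (x i : MvPolynomial (Fin m × Fin (c i)) ℂ)) = 0) : ∀ i, x i = 0 := by
  classical
  have hK : ∀ i, (x i : MvPolynomial (Fin m × Fin (c i)) ℂ) ∈
      KK m (Fin (c i)) (fun q => (lab i q).2) nu := fun i => ⟨(x i).2.1, (x i).2.2.1⟩
  choose K hK0 hK1 using fun i => coeff_top (m := m) (γ1 i) (γ2 i) (nu := nu) (h1 i) (hlab i)
    (hγ1 i) (hγ2 i)
  have main : ∀ k i, c i = k → x i = 0 := by
    intro k
    induction k using Nat.strong_induction_on with
    | _ k ih =>
      intro i hi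
      by_contra hx
      have hx' : (x i : MvPolynomial (Fin m × Fin (c i)) ℂ) ≠ 0 := fun h' => hx (Subtype.ext h')
      obtain ⟨u, hu⟩ := ne_zero_iff.1 hx'
      have h2 := congrArg (fun F => coeff (MM (lab i) u) (Polynomial.coeff F k)) h
      simp only [Polynomial.finsetSum_coeff, Polynomial.coeff_smul, coeff_sum, coeff_smul,
        Polynomial.coeff_zero, coeff_zero] at h2
      rw [Finset.sum_eq_single i] at h2
      · have h3 : (ph m _ (FF m (lab i) (γ1 i) (γ2 i)
            (x i : MvPolynomial (Fin m × Fin (c i)) ℂ))).coeff k = C (K i) * VV (lab i)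
              (x i : MvPolynomial (Fin m × Fin (c i)) ℂ) := by
          rw [← hi]
          exact hK1 i _ (hK i)
        rw [h3, coeff_C_mul, smul_eq_mul] at h2
        exact mul_ne_zero (hN i) (mul_ne_zero (hK0 i) (coeff_VV_ne (x i).2 hu)) h2
      · intro j _ hj
        rcases lt_trichotomy (c j) k with h3 | h3 | h3
        · rw [ih (c j) h3 j rfl]
          simp
        · have h4 : (ph m _ (FF m (lab j) (γ1 j) (γ2 j)
              (x j : MvPolynomial (Fin m × Fin (c j)) ℂ))).coeff k = C (K j) * VV (lab j)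
                (x j : MvPolynomial (Fin m × Fin (c j)) ℂ) := by
            rw [← h3]
            exact hK1 j _ (hK j)
          rw [h4, coeff_C_mul]
          have h5 : coeff (MM (lab i) u) (VV (lab j)
              (x j : MvPolynomial (Fin m × Fin (c j)) ℂ)) = 0 := by
            rw [coeff_VV]
            refine Finset.sum_eq_zero fun u' hu' => if_neg fun h6 => hj ?_
            exact hd j i (MM_lab ((x j).2.2.1 u' (mem_support_iff.1 hu')) ((x i).2.2.1 u hu) h6)
          rw [h5, mul_zero, smul_zero]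
        · rw [coeff_low (γ1 j) (γ2 j) (hK j) (h1 j) (fun q => by
            have := hlab j q
            omega) k h3, coeff_zero, smul_zero]
      · intro h'
        exact absurd (Finset.mem_univ _) h'
  exact fun i => main (c i) i rfl

end Vale.Agent.P181.ST.H662
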