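import Vale.Agent.P181.ST.H662.Phi

set_option autoImplicit false

/-!
# P181, ST (T2): one triple
-/

open MvPolynomial

namespace Vale.Agent.P181.ST.H662

open Vale.Agent.P181.DH.H674 (col)

variable {m : ℕ}

/-- Keep only the column `r`. -/
noncomputable def SS (m : ℕ) (r : Fin 3) :
    MvPolynomial (Fin (m + 1) × Fin 3) ℂ →ₐ[ℂ] MvPolynomial (Fin (m + 1)) ℂ :=
  aeval (fun p => if p.2 = r then X p.1 else 0)

/-- The column as an exponent. -/
noncomputable def fs (y : Fin (m + 1) → ℕ) : Fin (m + 1) →₀ ℕ := Finsupp.equivFunOnFinite.symm y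

lemma SS_monomial (r : Fin 3) (u : Fin (m + 1) × Fin 3 →₀ ℕ) (a : ℂ)
    [Decidable (∀ p, p.2 ≠ r → u p = 0)] : SS m r (monomial u a) =
      if (∀ p, p.2 ≠ r → u p = 0) then monomial (fs (col u r)) a else 0 := by
  rw [SS, aeval_monomial, Finsupp.prod_fintype _ _ (fun i => pow_zero _), Fintype.prod_prod_type]
  split_ifs with h
  · rw [monomial_eq, Finsupp.prod_fintype _ _ (fun i => pow_zero _), algebraMap_eq]
    congr 1
    refine Finset.prod_congr rfl fun k _ => ?_
    rw [Finset.prod_eq_single r]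
    · simp [fs, col]
    · intro r' _ hr'
      rw [h (k, r') hr', pow_zero]
    · intro h'
      exact absurd (Finset.mem_univ _) h'
  · push Not at h
    obtain ⟨⟨k, r'⟩, hr, hu⟩ := h
    rw [Finset.prod_eq_zero (Finset.mem_univ k), mul_zero]
    refine Finset.prod_eq_zero (Finset.mem_univ r') ?_
    rw [if_neg hr, zero_pow hu]

/-- The extraction of the part with two columns `e_0`. -/
noncomputable def EE (m : ℕ) (r r1 r2 : Fin 3) :
    MvPolynomial (Fin (m + 1) × Fin 3) ℂ →ₗ[ℂ] MvPolynomial (Fin (m + 1)) ℂ :=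
  (SS m r).toLinearMap ∘ₗ (pderiv (R := ℂ) ((0, r1) : Fin (m + 1) × Fin 3)).toLinearMap ∘ₗ
    (pderiv (R := ℂ) ((0, r2) : Fin (m + 1) × Fin 3)).toLinearMap

lemma EE_apply (r r1 r2 : Fin 3) (f : MvPolynomial (Fin (m + 1) × Fin 3) ℂ) :
    EE m r r1 r2 f = SS m r (pderiv (0, r1) (pderiv (0, r2) f)) := rfl

open scoped Classical in
lemma EE_monomial {r r1 r2 : Fin 3} (h1 : r1 ≠ r) (h2 : r2 ≠ r) (h12 : r1 ≠ r2)
    (h3 : ∀ r', r' ≠ r → r' = r1 ∨ r' = r2) (w : Fin (m + 1) × Fin 3 →₀ ℕ) :
    EE m r r1 r2 (monomial w 1) =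
      if col w r1 = e0 m ∧ col w r2 = e0 m then monomial (fs (col w r)) 1 else 0 := by
  have hne : ((0, r1) : Fin (m + 1) × Fin 3) ≠ (0, r2) := fun h => h12 (congrArg Prod.snd h)
  rw [EE_apply, pderiv_monomial, pderiv_monomial, SS_monomial]
  have hv : ∀ p : Fin (m + 1) × Fin 3, (w - Finsupp.single (0, r2) 1 - Finsupp.single (0, r1) 1 :
      Fin (m + 1) × Fin 3 →₀ ℕ) p = w p - (if (0, r2) = p then 1 else 0) - (if (0, r1) = p then 1 else 0) := by
    intro p
    rw [Finsupp.tsub_apply, Finsupp.tsub_apply, Finsupp.single_apply, Finsupp.single_apply]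
  have hw1 : (w - Finsupp.single (0, r2) 1 : Fin (m + 1) × Fin 3 →₀ ℕ) (0, r1) = w (0, r1) := by
    rw [Finsupp.tsub_apply, Finsupp.single_apply, if_neg hne.symm, Nat.sub_zero]
  by_cases hP : col w r1 = e0 m ∧ col w r2 = e0 m
  · rw [if_pos hP]
    have e1 : ∀ k, w (k, r1) = e0 m k := fun k => congrFun hP.1 k
    have e2 : ∀ k, w (k, r2) = e0 m k := fun k => congrFun hP.2 k
    rw [if_pos]
    · rw [hw1, e1, e2]
      have h4 : fs (col (w - Finsupp.single (0, r2) 1 - Finsupp.single (0, r1) 1) r) =
          fs (col w r) := by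
        unfold fs col
        congr 1
        funext k
        rw [hv, if_neg (fun h => h2 (congrArg Prod.snd h)),
          if_neg (fun h => h1 (congrArg Prod.snd h))]
        simp
      rw [h4]
      simp [e0]
    · rintro ⟨k, r'⟩ hr'
      rw [hv]
      rcases h3 r' hr' with rfl | rfl
      · rw [e1, if_neg (fun h => h12 (congrArg Prod.snd h).symm)]
        by_cases hk : k = 0
        · subst hk
          simp [e0]
        · simp [e0, hk]
      · rw [e2, if_neg (c := ((0, r1) : Fin (m + 1) × Fin 3) = (k, r'))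
          (fun h => h12 (congrArg Prod.snd h))]
        by_cases hk : k = 0
        · subst hk
          simp [e0]
        · simp [e0, hk]
  · rw [if_neg hP]
    split_ifs with h
    · rw [hw1]
      by_contra hc
      apply hP
      have hc' : w (0, r2) ≠ 0 ∧ w (0, r1) ≠ 0 := by
        constructor
        · intro h0
          apply hc
          simp [h0]
        · intro h0
          apply hc
          simp [h0]
      constructor
      · funext k
        have h5 := h (k, r1) h1
        rw [hv, if_neg (fun h => h12 (congrArg Prod.snd h).symm)] at h5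
        unfold col e0
        by_cases hk : k = 0
        · subst hk
          rw [if_pos rfl] at h5
          rw [Pi.single_eq_same]
          have := hc'.2
          omega
        · rw [if_neg (fun h => hk (congrArg Prod.fst h).symm)] at h5
          rw [Pi.single_eq_of_ne hk]
          omega
      · funext k
        have h5 := h (k, r2) h2
        rw [hv, if_neg (c := ((0, r1) : Fin (m + 1) × Fin 3) = (k, r2))
          (fun h => h12 (congrArg Prod.snd h))] at h5
        unfold col e0
        by_cases hk : k = 0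
        · subst hk
          rw [if_pos rfl] at h5
          rw [Pi.single_eq_same]
          have := hc'.1
          omega
        · rw [if_neg (fun h => hk (congrArg Prod.fst h).symm)] at h5
          rw [Pi.single_eq_of_ne hk]
          omega
    · rfl

/-- The letter of one column. -/
noncomputable def tle (m : ℕ) : MvPolynomial (Fin (m + 1)) ℂ →ₗ[ℂ] LR m :=
  (basisMonomials (Fin (m + 1)) ℂ).constr ℂ fun v => X (v : Fin (m + 1) → ℕ)

lemma tle_monomial (y : Fin (m + 1) → ℕ) (r : ℂ) : tle m (monomial (fs y) r) = C r * X y := by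
  have h : monomial (fs y) r = r • basisMonomials (Fin (m + 1)) ℂ (fs y) := by
    rw [coe_basisMonomials, smul_monomial, smul_eq_mul, mul_one]
  rw [h, map_smul, tle, Module.Basis.constr_basis, C_mul']
  rfl

/-- The three positions of the big column. -/
noncomputable def E3 (m : ℕ) : MvPolynomial (Fin (m + 1) × Fin 3) ℂ →ₗ[ℂ] LR m :=
  tle m ∘ₗ (EE m 0 1 2 + EE m 1 0 2 + EE m 2 0 1)

/-- The error. -/
noncomputable def Dl (m : ℕ) : MvPolynomial (Fin (m + 1) × Fin 3) ℂ →ₗ[ℂ] Polynomial (LR m) :=
  ph m (Fin 3) -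
    ((Polynomial.monomial 1 : LR m →ₗ[LR m] Polynomial (LR m)).restrictScalars ℂ) ∘ₗ E3 m

lemma Dl_apply (f : MvPolynomial (Fin (m + 1) × Fin 3) ℂ) :
    Dl m f = ph m (Fin 3) f - Polynomial.X * Polynomial.C (E3 m f) := by
  have h : Polynomial.X * Polynomial.C (E3 m f) = Polynomial.monomial 1 (E3 m f) := by
    rw [Polynomial.X_mul_C, Polynomial.C_mul_X_eq_monomial]
  rw [h]
  rfl

lemma dvd_Dl {f : MvPolynomial (Fin (m + 1) × Fin 3) ℂ}
    (hf : ∀ w, coeff w f ≠ 0 → 4 ≤ ∑ r, ∑ i, w (i, r)) : Polynomial.X ^ 2 ∣ Dl m f := by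
  classical
  have h0 : Dl m f = ∑ w ∈ f.support, coeff w f • Dl m (monomial w 1) := by
    conv_lhs => rw [← support_sum_monomial_coeff f]
    rw [map_sum]
    refine Finset.sum_congr rfl fun w _ => ?_
    rw [← map_smul, smul_monomial, smul_eq_mul, mul_one]
  rw [h0]
  refine Finset.dvd_sum fun w hw => ?_
  rw [Algebra.smul_def]
  refine Dvd.dvd.mul_left ?_ _
  have hd := hf w (mem_support_iff.1 hw)
  rw [Fin.sum_univ_three] at hd
  have hsum : ∀ r, col w r = e0 m → ∑ i, w (i, r) = 1 := by
    intro r hr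
    have : ∑ i, w (i, r) = ∑ i, e0 m i := Finset.sum_congr rfl fun i _ => congrFun hr i
    rw [this, e0, Finset.sum_pi_single']
    simp
  have hbig : ∀ r, 2 ≤ ∑ i, w (i, r) → col w r ≠ 0 ∧ col w r ≠ e0 m := by
    intro r hr
    constructor
    · intro h
      have : ∑ i, w (i, r) = 0 := Finset.sum_eq_zero fun i _ => congrFun h i
      omega
    · intro h
      have := hsum r h
      omega
  rw [Dl_apply, ph_monomial, one_smul, Fin.prod_univ_three, E3, LinearMap.comp_apply,
    LinearMap.add_apply, LinearMap.add_apply,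
    EE_monomial (by decide) (by decide) (by decide) (by decide),
    EE_monomial (by decide) (by decide) (by decide) (by decide),
    EE_monomial (by decide) (by decide) (by decide) (by decide)]
  by_cases a0 : col w 0 = e0 m
  · have s0 := hsum 0 a0
    by_cases a1 : col w 1 = e0 m
    · have s1 := hsum 1 a1
      obtain ⟨b1, b2⟩ := hbig 2 (by omega)
      rw [if_neg (fun h => b2 h.2), if_neg (fun h => b2 h.2), if_pos ⟨a0, a1⟩, zero_add, zero_add,
        tle_monomial, C_1, one_mul, a0, a1, lw_e0, one_mul, one_mul, lw_big b1 b2, sub_self]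
      exact dvd_zero _
    · by_cases a2 : col w 2 = e0 m
      · have s2 := hsum 2 a2
        obtain ⟨b1, b2⟩ := hbig 1 (by omega)
        rw [if_neg (fun h => b2 h.1), if_pos ⟨a0, a2⟩, if_neg (fun h => b2 h.2), zero_add, add_zero,
          tle_monomial, C_1, one_mul, a0, a2, lw_e0, one_mul, mul_one, lw_big b1 b2, sub_self]
        exact dvd_zero _
      · rw [if_neg (fun h => a1 h.1), if_neg (fun h => a2 h.2), if_neg (fun h => a1 h.2), add_zero,
          add_zero, map_zero, map_zero, mul_zero, sub_zero, mul_assoc, pow_two]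
        exact Dvd.dvd.mul_left (mul_dvd_mul (X_dvd_lw a1) (X_dvd_lw a2)) _
  · by_cases a1 : col w 1 = e0 m
    · by_cases a2 : col w 2 = e0 m
      · have s1 := hsum 1 a1
        have s2 := hsum 2 a2
        obtain ⟨b1, b2⟩ := hbig 0 (by omega)
        rw [if_pos ⟨a1, a2⟩, if_neg (fun h => b2 h.1), if_neg (fun h => b2 h.1), add_zero, add_zero,
          tle_monomial, C_1, one_mul, a1, a2, lw_e0, mul_one, mul_one, lw_big b1 b2, sub_self]
        exact dvd_zero _
      · rw [if_neg (fun h => a2 h.2), if_neg (fun h => a0 h.1), if_neg (fun h => a0 h.1), add_zero,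
          add_zero, map_zero, map_zero, mul_zero, sub_zero, mul_right_comm, pow_two]
        exact Dvd.dvd.mul_right (mul_dvd_mul (X_dvd_lw a0) (X_dvd_lw a2)) _
    · rw [if_neg (fun h => a1 h.1), if_neg (fun h => a0 h.1), if_neg (fun h => a0 h.1), add_zero,
        add_zero, map_zero, map_zero, mul_zero, sub_zero, pow_two]
      exact Dvd.dvd.mul_right (mul_dvd_mul (X_dvd_lw a0) (X_dvd_lw a1)) _

end Vale.Agent.P181.ST.H662
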